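import Vale.Agent.P354SA.Far

/-!
MON: a family of spheres which increases with v.
-/

open scoped ContDiff
open Set Filter Topology

namespace Vale.Agent.P354SL

open Vale.Agent.P354H (X3)
open Vale.Agent.P354YQ (Crv ex_crv)
open Vale.Agent.P354SA

/-- The derivative of η in y. -/
noncomputable def mA (η : X3 → Y2) (x : X3) : Y2 →L[ℝ] Y2 :=
  (fderiv ℝ η x).comp (ContinuousLinearMap.inr ℝ ℝ Y2)

/-- The field along which η is constant. -/
noncomputable def mV (η : X3 → Y2) (x : X3) : Y2 := -(mA η x).inverse (fderiv ℝ η x (1, 0))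

lemma wd_open (a b r : ℝ) : IsOpen (Wd a b r) :=
  (isOpen_Ioo.preimage continuous_fst).inter (isOpen_lt continuous_snd.norm continuous_const)

lemma dot_le (p q : Y2) : |dot p q| ≤ 2 * ‖p‖ * ‖q‖ := by
  have h1 : |p.1 * q.1| ≤ ‖p‖ * ‖q‖ := by
    rw [abs_mul]; exact mul_le_mul (norm_fst_le p) (norm_fst_le q) (abs_nonneg _) (norm_nonneg _)
  have h2 : |p.2 * q.2| ≤ ‖p‖ * ‖q‖ := by
    rw [abs_mul]; exact mul_le_mul (norm_snd_le p) (norm_snd_le q) (abs_nonneg _) (norm_nonneg _)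
  have := abs_add_le (p.1 * q.1) (p.2 * q.2)
  unfold dot
  linarith

variable {C0 P K : ℝ} {W : Set X3} {ρ : X3 → ℝ} {η : X3 → Y2}

lemma mA_inv (h : Sl2 C0 P K W ρ η) {x : X3} (m : x ∈ W) : (mA η x).IsInvertible := by
  have i : Function.Injective (mA η x) := (injective_iff_map_eq_zero _).2 fun y e => by
    have := (h.lip x m).2 y
    rw [show fderiv ℝ η x (0, y) = 0 from e, norm_zero, mul_zero] at this
    exact norm_le_zero_iff.1 this
  exact ⟨(LinearEquiv.ofInjectiveEndo (mA η x).toLinearMap i).toContinuousLinearEquiv, rfl⟩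

lemma mV_eq (h : Sl2 C0 P K W ρ η) {x : X3} (m : x ∈ W) : fderiv ℝ η x (1, mV η x) = 0 := by
  have e : mA η x ((mA η x).inverse (fderiv ℝ η x (1, 0))) = fderiv ℝ η x (1, 0) :=
    ((mA_inv h m).inverse_apply_eq.1 rfl).symm
  have : ((1 : ℝ), mV η x) = (1, 0) - (0, (mA η x).inverse (fderiv ℝ η x (1, 0))) := by
    simp [mV]
  rw [this, map_sub]
  exact sub_eq_zero.2 e.symm

lemma mV_le (h : Sl2 C0 P K W ρ η) {x : X3} (m : x ∈ W) : ‖mV η x‖ ≤ C0 ^ 2 := by
  have c := (norm_nonneg _).trans (h.lip x m).1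
  have e : fderiv ℝ η x (0, mV η x) = -fderiv ℝ η x (1, 0) := by
    rw [eq_neg_iff_add_eq_zero, ← map_add]
    simpa using mV_eq h m
  have a := (h.lip x m).2 (mV η x)
  have b := (fderiv ℝ η x).le_of_opNorm_le (h.lip x m).1 (1, 0)
  rw [e, norm_neg] at a
  simp only [Prod.norm_mk, norm_one, norm_zero, zero_le_one, sup_of_le_left, mul_one] at b
  nlinarith

lemma mV_sm (hW : IsOpen W) (h : Sl2 C0 P K W ρ η) : ContDiffOn ℝ ∞ (mV η) W := fun x m => by
  have d : ContDiffAt ℝ ∞ (fderiv ℝ η) x :=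
    (h.sm.2.contDiffAt (hW.mem_nhds m)).fderiv_right (by simp)
  have a : ContDiffAt ℝ ∞ (mA η) x := d.clm_comp contDiffAt_const
  have i : ContDiffAt ℝ ∞ (fun x => (mA η x).inverse) x :=
    (mA_inv h m).contDiffAt_map_inverse.comp x a
  exact (i.clm_apply (d.clm_apply contDiffAt_const)).neg.contDiffWithinAt

theorem mon : MON := by
  intro C0 P K a b r ρ η hK hC h x m x' m' le
  have hW := wd_open a b (r + 1 / 4)
  have T0 : 0 ≤ x'.1 - x.1 := sub_nonneg.2 le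
  have Tb : x'.1 - x.1 ≤ b - a := by linarith [m.1.1, m'.1.2]
  have mem : ∀ t ∈ uIcc 0 (x'.1 - x.1), ∀ y : Y2, ‖y - x.2‖ ≤ 1 / 4 →
      ((x.1 + t • (1 : ℝ), y) : X3) ∈ Wd a b (r + 1 / 4) := fun t mt y hy => by
    rw [uIcc_of_le T0] at mt
    have := norm_add_le (y - x.2) x.2
    rw [sub_add_cancel] at this
    refine ⟨⟨?_, ?_⟩, ?_⟩ <;> simp only [smul_eq_mul, mul_one] <;>
      linarith [m.1.1, m'.1.2, mt.1, mt.2, m.2]
  obtain ⟨γ, hγ, -⟩ := ex_crv (e := (1 : ℝ)) (w := x.1) (x := x.2) (T := x'.1 - x.1) hW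
    (mV_sm hW h) (r := fun _ => x.2) (r' := fun _ => 0) (L := 0) (ε := C0 ^ 2) (δ := 0)
    (ρ := 1 / 4) le_rfl (sq_nonneg _) (fun t _ => hasDerivAt_const _ _)
    (fun t mt y hy => ⟨mem t mt y hy, by simpa using mV_le h (mem t mt y hy)⟩) (by simp)
    (by
      rw [abs_of_nonneg T0, zero_mul, Real.exp_zero, mul_one, zero_add]
      exact (mul_le_mul_of_nonneg_left Tb (sq_nonneg _)).trans_lt hC)
  set c : ℝ → X3 := fun t => (x.1 + t • (1 : ℝ), γ t) with hc
  have cm : ∀ t ∈ Icc 0 (x'.1 - x.1), c t ∈ Wd a b (r + 1 / 4) := fun t mt =>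
    hγ.mem t (by rwa [uIcc_of_le T0])
  have cd : ∀ t ∈ Icc 0 (x'.1 - x.1), HasDerivAt c (1, mV η (c t)) t := fun t mt => by
    have := (((hasDerivAt_id t).smul_const (1 : ℝ)).const_add x.1).prodMk
      (hγ.ode t (by rwa [uIcc_of_le T0])).self_of_nhds
    simpa [hc] using this
  have c0 : c 0 = x := by simp [hc, hγ.init]
  have c1 : (c (x'.1 - x.1)).1 = x'.1 := by simp [hc]
  have dρ : ∀ z ∈ Wd a b (r + 1 / 4), HasFDerivAt ρ (fderiv ℝ ρ z) z := fun z mz =>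
    ((h.sm.1.contDiffAt (hW.mem_nhds mz)).differentiableAt (by simp)).hasFDerivAt
  have dη : ∀ z ∈ Wd a b (r + 1 / 4), HasFDerivAt η (fderiv ℝ η z) z := fun z mz =>
    ((h.sm.2.contDiffAt (hW.mem_nhds mz)).differentiableAt (by simp)).hasFDerivAt
  have e1 : η (c (x'.1 - x.1)) = η x := by
    have d : ∀ t ∈ Icc 0 (x'.1 - x.1), HasDerivAt (fun t => η (c t)) 0 t := fun t mt => by
      have := (dη _ (cm t mt)).comp_hasDerivAt t (cd t mt)
      rwa [mV_eq h (cm t mt)] at this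
    have := constant_of_has_deriv_right_zero
      (fun t mt => (d t mt).continuousAt.continuousWithinAt)
      (fun t mt => (d t (Ico_subset_Icc_self mt)).hasDerivWithinAt) _ ⟨T0, le_rfl⟩
    rwa [c0] at this
  have e2 : K⁻¹ * (x'.1 - x.1) ≤ ρ (c (x'.1 - x.1)) - ρ x := by
    have d : ∀ t ∈ Icc 0 (x'.1 - x.1), ∃ κ, K⁻¹ ≤ κ ∧ HasDerivAt (fun t => ρ (c t)) κ t :=
      fun t mt => by
        obtain ⟨κ, k, p, -, f⟩ := h.form _ (cm t mt)
        have := (dρ _ (cm t mt)).comp_hasDerivAt t (cd t mt)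
        rw [f, mV_eq h (cm t mt)] at this
        simp only [dot, Prod.fst_zero, Prod.snd_zero, mul_zero, add_zero, mul_one] at this
        exact ⟨κ, k.1, this⟩
    have := (convex_Icc 0 (x'.1 - x.1)).mul_sub_le_image_sub_of_le_deriv
      (f := fun t => ρ (c t)) (C := K⁻¹)
      (fun t mt => (d t mt).choose_spec.2.continuousAt.continuousWithinAt)
      (fun t mt => (d t (interior_subset mt)).choose_spec.2.differentiableAt.differentiableWithinAt)
      (fun t mt => by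
        rw [(d t (interior_subset mt)).choose_spec.2.deriv]
        exact (d t (interior_subset mt)).choose_spec.1) 0 ⟨le_rfl, T0⟩ _ ⟨T0, le_rfl⟩ T0
    rwa [sub_zero, c0] at this
  set y := c (x'.1 - x.1) with hy
  have my : y ∈ Wd a b (r + 1 / 4) := cm _ ⟨T0, le_rfl⟩
  have mx : x' ∈ Wd a b (r + 1 / 4) := ⟨m'.1, by linarith [m'.2]⟩
  have C1 := (norm_nonneg _).trans (h.lip _ my).1
  have P0 : 0 ≤ P := by
    obtain ⟨κ, -, p, q, -⟩ := h.form _ my
    exact (norm_nonneg _).trans q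
  have e3 : ‖ρ (x'.1, x'.2) - ρ (x'.1, y.2)‖ ≤ 2 * P * C0 * ‖x'.2 - y.2‖ := by
    refine (convex_ball (0 : Y2) (r + 1 / 4)).norm_image_sub_le_of_norm_hasFDerivWithin_le
      (𝕜 := ℝ) (f := fun u => ρ (x'.1, u))
      (f' := fun u => (fderiv ℝ ρ (x'.1, u)).comp (ContinuousLinearMap.inr ℝ ℝ Y2))
      (fun u mu => ?_) (fun u mu => ?_) (mem_ball_zero_iff.2 my.2) (mem_ball_zero_iff.2 mx.2)
    · exact ((dρ (x'.1, u) ⟨m'.1, mem_ball_zero_iff.1 mu⟩).comp u
        (hasFDerivAt_prodMk_right x'.1 u)).hasFDerivWithinAt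
    · have mz : ((x'.1, u) : X3) ∈ Wd a b (r + 1 / 4) := ⟨m'.1, mem_ball_zero_iff.1 mu⟩
      obtain ⟨κ, -, p, q, f⟩ := h.form _ mz
      refine ContinuousLinearMap.opNorm_le_bound _ (by positivity) fun ξ => ?_
      have b := (fderiv ℝ η (x'.1, u)).le_of_opNorm_le (h.lip _ mz).1 (0, ξ)
      have d := dot_le p (fderiv ℝ η (x'.1, u) (0, ξ))
      simp only [Prod.norm_mk, norm_zero, norm_nonneg, sup_of_le_right] at b
      rw [ContinuousLinearMap.comp_apply, ContinuousLinearMap.inr_apply, f]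
      simp only [mul_zero, zero_add, Real.norm_eq_abs]
      calc _ ≤ _ := d
        _ ≤ 2 * P * (C0 * ‖ξ‖) := by gcongr
        _ = _ := by ring
  have e4 := h.bil _ mx _ my c1.symm
  rw [e1] at e4
  have e5 : ρ (x'.1, y.2) = ρ y := by rw [← c1]
  rw [e5, Real.norm_eq_abs] at e3
  have e6 := (abs_le.1 e3).1
  have e7 : 2 * P * C0 * ‖x'.2 - y.2‖ ≤ 2 * P * C0 * (C0 * ‖η x' - η x‖) := by gcongr
  have e8 : ρ (x'.1, x'.2) = ρ x' := rfl
  nlinarith

end Vale.Agent.P354SL
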