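import Vale.Agent.P354YJ.Chain

/-!
Small perturbations of local diffeomorphisms, and a global inverse.
-/

open Set Filter Topology Metric Function

noncomputable section

namespace Vale.Agent.P354SL

open Vale.Agent.P354I (X)

variable {E F G H : Type} [NormedAddCommGroup E] [NormedSpace ℝ E] [NormedAddCommGroup F]
  [NormedSpace ℝ F] [NormedAddCommGroup G] [NormedSpace ℝ G] [NormedAddCommGroup H]
  [NormedSpace ℝ H]

/-- f is close to g at z, to first order. -/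
def Cl (ε : ℝ) (f g : F → H) (z : F) : Prop :=
  DifferentiableAt ℝ f z ∧ ‖f z - g z‖ ≤ ε ∧ ‖fderiv ℝ f z - fderiv ℝ g z‖ ≤ ε

lemma fd_graph {Θ : E × F × G → H} {e : E} {z : F} {u : F → G} (hu : DifferentiableAt ℝ u z)
    (h : DifferentiableAt ℝ Θ (e, z, u z)) : HasFDerivAt (fun z => Θ (e, z, u z))
      ((fderiv ℝ Θ (e, z, u z)).comp ((0 : F →L[ℝ] E).prod
        ((ContinuousLinearMap.id ℝ F).prod (fderiv ℝ u z)))) z :=
  h.hasFDerivAt.comp z ((hasFDerivAt_const e z).prodMk ((hasFDerivAt_id z).prodMk hu.hasFDerivAt))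

theorem pert {Θ : E × F × G → H} {e0 : E} {K : Set F} (hK : IsCompact K)
    (hΘ : ∀ z ∈ K, ContDiffAt ℝ 1 Θ (e0, z, 0)) {ε : ℝ} (hε : 0 < ε) :
    ∃ δ > 0, ∀ e, ‖e - e0‖ ≤ δ → ∀ z ∈ K, ∀ u : F → G, DifferentiableAt ℝ u z → ‖u z‖ ≤ δ →
      ‖fderiv ℝ u z‖ ≤ δ → Cl ε (fun z => Θ (e, z, u z)) (fun z => Θ (e0, z, 0)) z := by
  let P : (F →L[ℝ] G) → F →L[ℝ] E × F × G := fun D =>
    (0 : F →L[ℝ] E).prod ((ContinuousLinearMap.id ℝ F).prod D)
  have cP : Continuous P := (ContinuousLinearMap.prodₗᵢ ℝ).continuous.comp (continuous_const.prodMk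
    ((ContinuousLinearMap.prodₗᵢ ℝ).continuous.comp (continuous_const.prodMk continuous_id)))
  have k : ∀ᶠ x : E × G × (F →L[ℝ] G) in 𝓝 (e0, 0, 0), ∀ z ∈ K,
      DifferentiableAt ℝ Θ (x.1, z, x.2.1) ∧ ‖Θ (x.1, z, x.2.1) - Θ (e0, z, 0)‖ < ε ∧
        ‖(fderiv ℝ Θ (x.1, z, x.2.1)).comp (P x.2.2) - (fderiv ℝ Θ (e0, z, 0)).comp (P 0)‖ < ε := by
    refine hK.eventually_forall_of_forall_eventually fun z hz => ?_
    have c1 : ContinuousAt (fun w : (E × G × (F →L[ℝ] G)) × F => (w.1.1, w.2, w.1.2.1))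
      ((e0, 0, 0), z) := by fun_prop
    have c2 : ContinuousAt (fun w : (E × G × (F →L[ℝ] G)) × F => (e0, w.2, (0 : G)))
      ((e0, 0, 0), z) := by fun_prop
    have d := (hΘ z hz).continuousAt_fderiv one_ne_zero
    refine (c1.eventually (((hΘ z hz).eventually (by simp)).mono fun w hw =>
      hw.differentiableAt one_ne_zero)).and ((ContinuousAt.eventually_lt
        (((hΘ z hz).continuousAt.comp_of_eq c1 rfl).sub
          ((hΘ z hz).continuousAt.comp_of_eq c2 rfl)).norm continuousAt_const (by simpa)).and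
      (ContinuousAt.eventually_lt (((d.comp_of_eq c1 rfl).clm_comp
        (cP.continuousAt.comp continuousAt_fst.snd.snd)).sub ((d.comp_of_eq c2 rfl).clm_comp
          continuousAt_const)).norm continuousAt_const (by simpa)))
  obtain ⟨δ, δ0, k⟩ := Metric.eventually_nhds_iff.1 k
  refine ⟨δ / 2, by positivity, fun e he z hz u hu h1 h2 => ?_⟩
  obtain ⟨k1, k2, k3⟩ := @k (e, u z, fderiv ℝ u z) (by
    rw [Prod.dist_eq, Prod.dist_eq, dist_eq_norm, dist_zero_right, dist_zero_right]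
    exact max_lt (by linarith) (max_lt (by linarith) (by linarith))) z hz
  have f0 := fd_graph (u := fun _ => (0 : G)) (differentiableAt_const _)
    ((hΘ z hz).differentiableAt one_ne_zero)
  refine ⟨(fd_graph hu k1).differentiableAt, k2.le, ?_⟩
  rw [(fd_graph hu k1).fderiv, f0.fderiv, fderiv_fun_const]
  exact k3.le

theorem loc [FiniteDimensional ℝ F] {B : F → H} {K O : Set F} (hK : IsCompact K) (hO : IsOpen O)
    (hs : K ⊆ O) (hB : ∀ z ∈ K, ContDiffAt ℝ 1 B z ∧ Injective (fderiv ℝ B z)) (hi : InjOn B K) :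
    ∃ ε > 0, ∀ f : F → H, (∀ z ∈ O, Cl ε f B z) → InjOn f K ∧ ∀ z ∈ K, Injective (fderiv ℝ f z) := by
  have k : ∀ᶠ ε : ℝ in 𝓝 0, ∀ x ∈ K ×ˢ K, ∀ f : F → H, (∀ z ∈ O, Cl ε f B z) → x.1 ∈ O →
      x.2 ∈ O → (f x.1 = f x.2 → x.1 = x.2) ∧ Injective (fderiv ℝ f x.1) := by
    refine (hK.prod hK).eventually_forall_of_forall_eventually fun x hx => ?_
    obtain ⟨b1, b2⟩ := hB _ hx.1
    obtain ⟨c, c2, c1⟩ : ∃ c > (0 : ℝ), ∀ v, ‖v‖ ≤ c * ‖fderiv ℝ B x.1 v‖ := by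
      obtain ⟨c, c0, hc⟩ :=
        (LinearMap.injective_iff_antilipschitz (fderiv ℝ B x.1).toLinearMap).1 b2
      exact ⟨c, c0, fun v => by simpa using hc.le_mul_dist v 0⟩
    obtain ⟨r, r0, hr⟩ := Metric.eventually_nhds_iff_ball.1 ((hO.eventually_mem (hs hx.1)).and
      (ContinuousAt.eventually_lt ((b1.continuousAt_fderiv one_ne_zero).sub
        (continuousAt_const (y := fderiv ℝ B x.1))).norm (continuousAt_const (y := 1 / (4 * c)))
          (by simp only [Pi.sub_apply, sub_self, norm_zero]; positivity)))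
    have q : ∀ ε f, ε < 1 / (4 * c) → (∀ z ∈ O, Cl ε f B z) → ∀ z ∈ ball x.1 r,
        ‖fderiv ℝ f z - fderiv ℝ B x.1‖ ≤ 1 / (2 * c) := fun ε f h1 h2 z hz => by
      have := norm_sub_le_norm_sub_add_norm_sub (fderiv ℝ f z) (fderiv ℝ B z) (fderiv ℝ B x.1)
      have e : 1 / (2 * c) = 1 / (4 * c) + 1 / (4 * c) := by field_simp; ring
      have e' : ‖fderiv ℝ B z - fderiv ℝ B x.1‖ < 1 / (4 * c) := (hr z hz).2
      linarith [(h2 z (hr z hz).1).2.2]
    have z0 : ∀ v, ‖fderiv ℝ B x.1 v‖ ≤ 1 / (2 * c) * ‖v‖ → v = 0 := fun v hv => by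
      have := (c1 v).trans (mul_le_mul_of_nonneg_left hv c2.le)
      rw [show c * (1 / (2 * c) * ‖v‖) = ‖v‖ / 2 by field_simp] at this
      exact norm_le_zero_iff.1 (by linarith)
    have e1 : ∀ᶠ w : ℝ × F × F in 𝓝 (0, x), w.1 < 1 / (4 * c) ∧ w.2.1 ∈ ball x.1 r :=
      (continuousAt_fst.eventually_lt continuousAt_const (by positivity)).and
        (continuousAt_snd.fst.eventually (ball_mem_nhds _ r0))
    have e2 : ∀ᶠ w : ℝ × F × F in 𝓝 (0, x), w.2.2 ∈ ball x.1 r ∨ 2 * w.1 < ‖B w.2.1 - B w.2.2‖ := by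
      by_cases e : x.2 = x.1
      · exact (continuousAt_snd.snd.eventually (ball_mem_nhds _ r0)).mono fun w hw => .inl (e ▸ hw)
      · refine (ContinuousAt.eventually_lt (by fun_prop) ((b1.continuousAt.comp_of_eq
          continuousAt_snd.fst rfl).sub ((hB _ hx.2).1.continuousAt.comp_of_eq
            continuousAt_snd.snd rfl)).norm ?_).mono fun w hw => .inr hw
        simpa [sub_eq_zero] using fun j => e (hi hx.1 hx.2 j).symm
    filter_upwards [e1, e2] with w h1 h2 f hf m1 m2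
    refine ⟨fun j => h2.elim (fun h3 => ?_) fun h3 => ?_, (injective_iff_map_eq_zero _).2
      fun v hv => z0 v ?_⟩
    · have := (convex_ball x.1 r).norm_image_sub_le_of_norm_fderiv_le'
        (fun z hz => (hf z (hr z hz).1).1) (q _ f h1.1 hf) h3 h1.2
      rw [j, sub_self, zero_sub, norm_neg] at this
      exact sub_eq_zero.1 (z0 _ this)
    · have := norm_sub_le_norm_sub_add_norm_sub (B w.2.1) (f w.2.1) (B w.2.2)
      have a1 := (hf _ m1).2.1
      have a2 := (hf _ m2).2.1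
      rw [norm_sub_rev] at a1
      rw [← j] at a2
      linarith
    · have := (fderiv ℝ f w.2.1 - fderiv ℝ B x.1).le_of_opNorm_le (q _ f h1.1 hf _ h1.2) v
      rwa [ContinuousLinearMap.sub_apply, hv, zero_sub, norm_neg] at this
  obtain ⟨ε, ε0, k⟩ := Metric.eventually_nhds_iff.1 k
  have k' := @k (ε / 2) (by rw [dist_zero_right, Real.norm_of_nonneg (by positivity)]; linarith)
  exact ⟨ε / 2, by positivity, fun f hf => ⟨fun z hz z' hz' =>
    (k' (z, z') ⟨hz, hz'⟩ f hf (hs hz) (hs hz')).1,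
      fun z hz => (k' (z, z) ⟨hz, hz⟩ f hf (hs hz) (hs hz)).2⟩⟩

lemma log_close {a b : ℝ} (hb : 0 < b) (h : |a - b| ≤ b / 16) :
    0 < a ∧ |Real.log a - Real.log b| ≤ 1 / 8 := by
  obtain ⟨h1, h2⟩ := abs_le.1 h
  have a0 : 0 < a := by linarith
  have k1 := Real.log_le_sub_one_of_pos (div_pos a0 hb)
  have k2 := Real.log_le_sub_one_of_pos (div_pos hb a0)
  rw [Real.log_div a0.ne' hb.ne'] at k1
  rw [Real.log_div hb.ne' a0.ne'] at k2
  have k3 : a / b ≤ 9 / 8 := by rw [div_le_iff₀ hb]; linarith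
  have k4 : b / a ≤ 9 / 8 := by rw [div_le_iff₀ a0]; linarith
  exact ⟨a0, abs_le.2 ⟨by linarith, by linarith⟩⟩

/-- The logarithm of the length. -/
def ln (y : X) : ℝ := Real.log ‖y‖

lemma ln_smul {y : X} (hy : y ≠ 0) (x : ℝ) : ln (Real.exp x • y) = x + ln y := by
  rw [ln, norm_smul, Real.norm_of_nonneg (Real.exp_pos _).le,
    Real.log_mul (Real.exp_pos _).ne' (norm_ne_zero_iff.2 hy), Real.log_exp, ln]

lemma ln_ct {y : X} (hy : y ≠ 0) : ContinuousAt ln y :=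
  continuousAt_id.norm.log (norm_ne_zero_iff.2 hy)

lemma grow {f : X → ℝ}
    (h : ∀ y ≠ 0, ∀ y' ≠ 0, |ln y - ln y'| ≤ 1 → |f y - f y' - (ln y - ln y')| ≤ 1 / 4) :
    ∀ y ≠ 0, ∀ y' ≠ 0, 1 / 2 ≤ ln y - ln y' → (ln y - ln y') / 2 ≤ f y - f y' := by
  have k : ∀ n : ℕ, ∀ y ≠ 0, ∀ y' ≠ 0, 1 / 2 ≤ ln y - ln y' → ln y - ln y' ≤ n / 2 →
      (ln y - ln y') / 2 ≤ f y - f y' := fun n => by
    induction n with
    | zero => exact fun y _ y' _ h1 h2 => by simp at h2; linarith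
    | succ n ih =>
      intro y hy y' hy' h1 h2
      rcases le_total (ln y - ln y') 1 with h3 | h3
      · linarith [(abs_le.1 (h y hy y' hy' (abs_le.2 ⟨by linarith, h3⟩))).1]
      have z0 : Real.exp (1 / 2) • y' ≠ 0 := smul_ne_zero (Real.exp_pos _).ne' hy'
      have e := ln_smul hy' (1 / 2)
      push_cast at h2
      linarith [ih y hy _ z0 (by linarith) (by linarith),
        (abs_le.1 (h _ z0 y' hy' (abs_le.2 ⟨by linarith, by linarith⟩))).1]
  intro y hy y' hy' h1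
  obtain ⟨n, hn⟩ := exists_nat_ge (2 * (ln y - ln y'))
  exact k n y hy y' hy' h1 (by linarith)

lemma conn0 : IsPreconnected ({0}ᶜ : Set X) :=
  (isConnected_compl_singleton_of_one_lt_rank (by
    rw [← Module.finrank_eq_rank]; simp) 0).isPreconnected

theorem glob {Φ : X → X}
    (h1 : ∀ y ≠ 0, ContDiffAt ℝ 1 Φ y ∧ Injective (fderiv ℝ Φ y) ∧ Φ y ≠ 0)
    (h2 : ∀ y ≠ 0, ∀ y' ≠ 0, |ln y - ln y'| ≤ 1 → (Φ y = Φ y' → y = y') ∧
      |ln (Φ y) - ln (Φ y') - (ln y - ln y')| ≤ 1 / 4) :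
    ∃ Ψ : X → X, (∀ y ≠ 0, Ψ (Φ y) = y) ∧
      ∀ w ≠ 0, Ψ w ≠ 0 ∧ Φ (Ψ w) = w ∧ ContDiffAt ℝ 1 Ψ w := by
  have g := grow (f := fun y => ln (Φ y)) fun y a y' b c => (h2 y a y' b c).2
  have b : ∀ y ≠ 0, ∀ y' ≠ 0, |ln y - ln y'| ≤ 1 + 2 * |ln (Φ y) - ln (Φ y')| := fun y a y' b => by
    have k1 := abs_nonneg (ln (Φ y) - ln (Φ y'))
    have k2 := le_abs_self (ln (Φ y) - ln (Φ y'))
    have k3 := neg_abs_le (ln (Φ y) - ln (Φ y'))
    refine abs_le.2 ⟨?_, ?_⟩ <;> by_contra! k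
    · linarith [g y' b y a (by linarith)]
    · linarith [g y a y' b (by linarith)]
  have i : InjOn Φ {0}ᶜ := fun y a y' c e => (h2 y a y' c (by simpa [e] using b y a y' c)).1 e
  have d : ∀ y ≠ 0, ∃ L : X ≃L[ℝ] X, HasFDerivAt Φ (L : X →L[ℝ] X) y := fun y hy =>
    ⟨(LinearEquiv.ofInjectiveEndo (fderiv ℝ Φ y).toLinearMap (h1 y hy).2.1).toContinuousLinearEquiv,
      ((h1 y hy).1.differentiableAt one_ne_zero).hasFDerivAt⟩
  have o : IsOpen (Φ '' {0}ᶜ) := isOpen_iff_mem_nhds.2 fun _ ⟨y, hy, e⟩ => by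
    obtain ⟨L, hL⟩ := d y hy
    rw [← e, ← ((h1 y hy).1.hasStrictFDerivAt' hL one_ne_zero).map_nhds_eq_of_equiv]
    exact image_mem_map (isOpen_compl_singleton.mem_nhds hy)
  obtain ⟨y0, hy0⟩ := exists_ne (0 : X)
  have s : {0}ᶜ ⊆ Φ '' {0}ᶜ := conn0.subset_of_closure_inter_subset o
    ⟨Φ y0, (h1 y0 hy0).2.2, y0, hy0, rfl⟩ fun w ⟨w1, w2⟩ => by
      have c := ((P354YJ.shell_cpt (|ln y0| + 1 + 2 * (|ln w - ln (Φ y0)| + 1))).image_of_continuousOn
        fun y hy => (h1 y hy.1).1.continuousAt.continuousWithinAt).isClosed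
      refine image_mono (fun y hy => hy.1) (c.closure_subset (mem_closure_iff_frequently.2
        (((mem_closure_iff_frequently.1 w1).and_eventually (ContinuousAt.eventually_lt
          ((ln_ct w2).sub (continuousAt_const (y := ln (Φ y0)))).abs
            (continuousAt_const (y := |ln w - ln (Φ y0)| + 1)) (by simp))).mono ?_)))
      rintro _ ⟨⟨y, hy, rfl⟩, k⟩
      refine ⟨y, ⟨hy, ?_⟩, rfl⟩
      have := abs_sub_abs_le_abs_sub (ln y) (ln y0)
      change |ln y| ≤ _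
      simp only [Pi.sub_apply] at k
      linarith [b y hy y0 hy0]
  have l : ∀ y ≠ 0, invFunOn Φ {0}ᶜ (Φ y) = y := fun y hy => i.leftInvOn_invFunOn hy
  refine ⟨invFunOn Φ {0}ᶜ, l, fun w hw => ?_⟩
  obtain ⟨y, hy, rfl⟩ := s hw
  obtain ⟨L, hL⟩ := d y hy
  rw [l y hy]
  exact ⟨hy, rfl, ((h1 y hy).1.to_localInverse hL one_ne_zero).congr_of_eventuallyEq
    (HasStrictFDerivAt.localInverse_unique _ ((isOpen_compl_singleton.eventually_mem hy).mono l))⟩

end Vale.Agent.P354SL
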