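import Vale.Agent.P354KX.Defs
import Vale.Agent.P354XD.Indx
import Vale.Agent.P354YR.Cau

/-!
INDY: the data on a slice of a double null chart.
-/

open scoped ContDiff
open Set Filter Topology

namespace Vale.Agent.P354SL

open Vale.Agent.P354n (R4 IsConn)
open Vale.Agent.P354H (X3 e)
open Vale.Agent.P354C (Ix met detP)
open Vale.Agent.P354I (X ee Dat)
open Vale.Agent.P354R Vale.Agent.P354RC
open Vale.Agent.P354J (nU)
open Vale.Agent.P354XE (Tw Lor)
open Vale.Agent.P354XU (IndAt)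
open Vale.Agent.P354PU (JG pg JG_eq)
open Vale.Agent.P354GT (Fu)
open Vale.Agent.P354XD (ee_sum nrm_eq)
open Vale.Agent.P354KX (nv INDY)

variable {Ψ : R4 → R4} {U : R4 → Ix → ℝ} {B D : Set R4} {g : Tw} {Xf : R4 → R4} {J : X → R4}
  {d : Dat} {j : X3 → X} {z : X3} {t t' : ℝ}

lemma dc (t t' : ℝ) (w : X3) : HasFDerivAt (fun w : X3 => ((t, w.1 - t', w.2) : R4))
    (ContinuousLinearMap.inr ℝ ℝ X3) w := by
  have : (fun w : X3 => ((t, w.1 - t', w.2) : R4)) =
      fun w => ((t, -t', 0) : R4) + ContinuousLinearMap.inr ℝ ℝ X3 w := by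
    funext w; simp [sub_eq_neg_add, Prod.ext_iff]
  rw [this]
  exact (ContinuousLinearMap.hasFDerivAt _).const_add _

lemma ev_df {E F : Type} [NormedAddCommGroup E] [NormedSpace ℝ E] [NormedAddCommGroup F]
    [NormedSpace ℝ F] {f : E → F} {x : E} (h : ContDiffAt ℝ ∞ f x) :
    ∀ᶠ y in 𝓝 x, DifferentiableAt ℝ f y :=
  ((h.of_le (m := 1) (by simp)).eventually (by simp)).mono fun _ k => k.differentiableAt one_ne_zero

lemma tan_eq (aΨ : ContDiffAt ℝ ∞ Ψ (t, z.1 - t', z.2)) (aJ : ContDiffAt ℝ ∞ J (j z))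
    (aj : ContDiffAt ℝ ∞ j z) (k : ∀ᶠ x in 𝓝 z, Ψ (t, x.1 - t', x.2) = J (j x)) :
    ∀ᶠ w in 𝓝 z, ∀ a, fderiv ℝ Ψ (t, w.1 - t', w.2) (0, a) = fderiv ℝ J (j w) (fderiv ℝ j w a) := by
  filter_upwards [(dc t t' z).continuousAt.eventually (ev_df aΨ),
    aj.continuousAt.eventually (ev_df aJ), ev_df aj, k.eventually_nhds] with w h1 h2 h3 h4 a
  exact DFunLike.congr_fun ((h1.hasFDerivAt.comp w (dc t t' w)).unique
    ((h2.hasFDerivAt.comp w h3.hasFDerivAt).congr_of_eventuallyEq h4)) a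

lemma fw (L : Lor g D Xf) (P : Pull Ψ (met U) B g D) (F : Fu U B) (hp : (t, z.1 - t', z.2) ∈ B)
    (o : g (Ψ (t, z.1 - t', z.2)) (fderiv ℝ Ψ (t, z.1 - t', z.2) nv) (Xf (Ψ (t, z.1 - t', z.2))) < 0)
    (aJ : ContDiffAt ℝ ∞ J (j z)) (aj : ContDiffAt ℝ ∞ j z)
    (k : ∀ᶠ x in 𝓝 z, Ψ (t, x.1 - t', x.2) = J (j x)) (I : IndAt g Xf J d (j z)) :
    P354J.Ind (U (t, z.1 - t', z.2)) (pg j d.h z) (pg j d.K z) := by
  have aΨ := P.smooth.contDiffAt (P.open'.mem_nhds hp)
  have e0 := tan_eq aΨ aJ aj k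
  have dJ : ContDiffAt ℝ ∞ (fderiv ℝ J) (j z) := aJ.fderiv_right (by simp)
  have dj := (aj.differentiableAt (by simp)).hasFDerivAt
  have e2 : ∀ a b, ∃ v, fderiv ℝ (fun q => fderiv ℝ Ψ q (0, b)) (t, z.1 - t', z.2) (0, a) =
      fderiv ℝ (fderiv ℝ J) (j z) (fderiv ℝ j z a) (fderiv ℝ j z b) + fderiv ℝ J (j z) v :=
    fun a b => by
      have s : DifferentiableAt ℝ (fun w => fderiv ℝ j w b) z :=
        ((aj.fderiv_right (m := ∞) (by simp)).clm_apply contDiffAt_const).differentiableAt (by simp)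
      have s1 := (at_df ((at_fd aΨ).clm_apply
        (contDiffAt_const (c := ((0, b) : R4))))).hasFDerivAt.comp z (dc t t' z)
      exact ⟨_, DFunLike.congr_fun (s1.unique
        ((((dJ.differentiableAt (by simp)).hasFDerivAt.comp z dj).clm_apply
          s.hasFDerivAt).congr_of_eventuallyEq (e0.mono fun v hv => hv b))) a |>.trans (add_comm _ _)⟩
  have ex := k.self_of_nhds
  have e1 := e0.self_of_nhds
  clear k e0
  generalize ((t, z.1 - t', z.2) : R4) = p at *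
  obtain ⟨G, n, cG, n1, n2, n3⟩ := I
  obtain ⟨H, r⟩ := rp_of_met L.isOpen L.met
  have hx : J (j z) ∈ D := ex ▸ P.maps hp
  have pe : ∀ a b, met U p a b = H (J (j z)) (fderiv ℝ Ψ p a) (fderiv ℝ Ψ p b) := fun a b => by
    rw [P.eq p hp, ex, r.eq _ hx]
  simp only [r.eq _ hx, P354I.pd] at n1 n2 n3
  have n0 : ∀ u, H (J (j z)) (fderiv ℝ J (j z) u) n = 0 := fun u => by
    rw [ee_sum u]
    simp [fun i => (n3 i i).1]
  obtain ⟨m, rfl⟩ := surj_of_inj (P.inj p hp) n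
  obtain ⟨ξ, hξ⟩ := surj_of_inj (P.inj p hp) (Xf (J (j z)))
  obtain ⟨hO, hP, -⟩ := F.2 p hp
  obtain rfl : m = nU (U p) := nrm_eq (ξ := ξ) hO hP (fun a => by rw [pe, e1, n0])
    (by rw [pe, n1]) (by rwa [pe, hξ]) (by rw [pe, hξ, ← r.eq _ hx, ← ex]; exact o)
    (by rw [pe, hξ, ← r.eq _ hx]; exact L.tl _ hx)
  have i := (P354J.ind U p hP hO.ne').2
  have pg' : ∀ (F : X → P354J.M3) a b, pg j F z a b =
      ∑ i, ∑ l, fderiv ℝ j z (e a) i * fderiv ℝ j z (e b) l * F (j z) i l := fun F a b => by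
    simp only [pg, Matrix.mul_apply, Matrix.transpose_apply, Finset.sum_mul,
      JG_eq dj.differentiableAt]
    rw [Finset.sum_comm]
    exact Finset.sum_congr rfl fun _ _ => Finset.sum_congr rfl fun _ _ => by ring
  intro a b
  rw [pg', pg', ← (i _ _).2.2.1, ← (i _ _).2.2.2, pe, e1, e1]
  have q := k2.2.2.2.2 _ _ _ _ _ P _ hp (0, e a) (0, e b) (nU (U p))
  obtain ⟨v, e2⟩ := e2 (e a) (e b)
  rw [chr, ← (F.vac P.open').1 p hp, e2, e1, e1, ex, r.chr hx, r.eq _ hx, map_add,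
    ContinuousLinearMap.add_apply, n0, add_zero, mul_div_cancel_left₀ _ two_ne_zero] at q
  rw [(F.vac P.open').2.2.symm p hp, q]
  generalize fderiv ℝ j z (e a) = u
  generalize fderiv ℝ j z (e b) = v
  have s : ∀ i l, fderiv ℝ (P354I.pd l J) (j z) (ee i) =
      fderiv ℝ (fderiv ℝ J) (j z) (ee i) (ee l) := fun i l => by
    unfold P354I.pd
    rw [fderiv_clm_apply (dJ.differentiableAt (by simp)) (differentiableAt_const _)]
    simp
  simp only [← fun i l => (n3 i l).2.1, ← fun i l => (n3 i l).2.2, (r.conn hx).1 cG, s, map_add,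
    r.symm _ hx (fderiv ℝ Ψ p _), r.gm hx, C1_ap, ContinuousLinearMap.add_apply]
  rw [ee_sum u, ee_sum v]
  simp only [map_sum, map_smul, ContinuousLinearMap.sum_apply, ContinuousLinearMap.smul_apply,
    smul_eq_mul]
  rw [← ee_sum u, ← ee_sum v]
  simp only [Fin.sum_univ_three]
  constructor <;> ring

lemma e_sum (v : X3) : v = v.1 • e 0 + v.2.1 • e 1 + v.2.2 • e 2 := by simp [e]

/-- The derivative of a chart is invertible. -/
lemma ex_cle (dj : DifferentiableAt ℝ j z) (hd : (JG j z).det ≠ 0) :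
    ∃ A : X3 ≃L[ℝ] X, HasFDerivAt j (A : X3 →L[ℝ] X) z := by
  have i : Function.Injective (fderiv ℝ j z) := (injective_iff_map_eq_zero _).2 fun v hv => by
    have := Matrix.eq_zero_of_vecMul_eq_zero hd (v := ![v.1, v.2.1, v.2.2]) (funext fun i => by
      have k := congrArg (fun w : X => w i) hv
      rw [e_sum v] at k
      simpa [Matrix.vecMul, dotProduct, Fin.sum_univ_three, JG_eq dj] using k)
    exact Prod.ext (congrFun this 0) (Prod.ext (congrFun this 1) (congrFun this 2))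
  exact ⟨(LinearMap.linearEquivOfInjective (fderiv ℝ j z).toLinearMap i
    (by simp)).toContinuousLinearEquiv, dj.hasFDerivAt⟩

/-- **INDY.** -/
theorem indy : INDY := fun Ψ U B D g Xf J d j z t t' L P F hp o aj hd k => by
  have aΨ := P.smooth.contDiffAt (P.open'.mem_nhds hp)
  obtain ⟨A, hA⟩ := ex_cle (aj.differentiableAt (by simp)) hd
  have aJ : ContDiffAt ℝ ∞ J (j z) := by
    have s := aj.hasStrictFDerivAt' hA (by simp)
    have c := aj.to_localInverse hA (by simp)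
    have e0 : aj.localInverse hA (by simp) (j z) = z := aj.localInverse_apply_image _ _
    refine (ContDiffAt.comp (g := fun x : X3 => Ψ (t, x.1 - t', x.2)) _ (e0.symm ▸ aΨ.comp z
      (f := fun x : X3 => ((t, x.1 - t', x.2) : R4)) (by fun_prop)) c).congr_of_eventuallyEq ?_
    filter_upwards [s.eventually_right_inverse, s.localInverse_tendsto.eventually k] with y h1 h2
    exact (congrArg J h1).symm.trans h2.symm
  refine ⟨fw L P F hp o aJ aj k, fun I => ?_⟩
  have e1 := (tan_eq aΨ aJ aj k).self_of_nhds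
  have ex := k.self_of_nhds
  have hx : J (j z) ∈ D := ex ▸ P.maps hp
  obtain ⟨G, cG⟩ : ∃ G, IsConn g G (J (j z)) :=
    let ⟨H, r⟩ := rp_of_met L.isOpen L.met
    ⟨Gm H, (r.conn hx).2 fun _ _ => rfl⟩
  obtain ⟨hO, hP, -⟩ := F.2 _ hp
  obtain ⟨i1, i2⟩ := P354J.ind U _ hP hO.ne'
  have l := L.met.lin _ hx
  have sy := L.met.symm _ hx
  obtain ⟨n, n1, n2, n3⟩ : ∃ n, g (J (j z)) n n = -1 ∧ g (J (j z)) n (Xf (J (j z))) < 0 ∧
      ∀ i, g (J (j z)) (P354I.pd i J (j z)) n = 0 := by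
    have m1 := (P.eq _ hp _ _).symm.trans i1
    have m2 : ∀ i, g (J (j z)) (P354I.pd i J (j z))
        (fderiv ℝ Ψ (t, z.1 - t', z.2) (nU (U (t, z.1 - t', z.2)))) = 0 := fun i => by
      obtain ⟨a, ha⟩ := A.surjective (ee i)
      rw [P354I.pd, ← ha, ← show fderiv ℝ j z a = A a from by rw [hA.fderiv]; rfl, ← e1, ← ex,
        ← P.eq _ hp]
      exact (i2 a a).1
    rw [ex] at m1
    generalize fderiv ℝ Ψ (t, z.1 - t', z.2) (nU (U (t, z.1 - t', z.2))) = N at m1 m2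
    rcases lt_trichotomy (g (J (j z)) N (Xf (J (j z)))) 0 with c | c | c
    · exact ⟨N, m1, c, m2⟩
    · rw [P354YR.zero_of (L.sig _ hx) (L.tl _ hx) (by linarith) c, (l _).map_zero] at m1
      linarith
    · exact ⟨-N, by rw [(l _).map_neg, sy, (l _).map_neg, neg_neg, m1],
        by rw [sy, (l _).map_neg, sy]; linarith, fun i => by rw [(l _).map_neg, m2, neg_zero]⟩
  have k1 := fw (d := ⟨fun _ => Matrix.of fun i k => g (J (j z)) (P354I.pd i J (j z))
    (P354I.pd k J (j z)), fun _ => Matrix.of fun i k => -g (J (j z)) n (P354I.pd i (P354I.pd k J)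
      (j z) + G (J (j z)) (P354I.pd i J (j z)) (P354I.pd k J (j z)))⟩) L P F hp o aJ aj k
    ⟨G, n, cG, n1, n2, fun i k => ⟨n3 i, rfl, rfl⟩⟩
  have c : ∀ F F' : X → P354J.M3, (∀ a b, pg j F z a b = pg j F' z a b) → F (j z) = F' (j z) :=
    fun F F' h => by
      have u := Matrix.isUnit_iff_isUnit_det _ |>.2 (Ne.isUnit hd)
      have u' := Matrix.isUnit_iff_isUnit_det _ |>.2
        (Ne.isUnit ((Matrix.det_transpose (JG j z)).trans_ne hd))
      exact u.mul_left_cancel (u'.mul_right_cancel (Matrix.ext h))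
  have c1 := c _ _ fun a b => (k1 a b).1.symm.trans (I a b).1
  have c2 := c _ _ fun a b => (k1 a b).2.symm.trans (I a b).2
  exact ⟨G, n, cG, n1, n2, fun i k => ⟨n3 i, congrFun (congrFun c1 i) k, congrFun (congrFun c2 i) k⟩⟩

end Vale.Agent.P354SL
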