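import Vale.Agent.P354SL.Abs

/-!
The projection of the black hole along the Boyer-Lindquist field d/dr.
-/

open scoped ContDiff
open Set Filter Topology Metric Function

noncomputable section

namespace Vale.Agent.P354SL

open Vale.Agent.P354n (R4)
open Vale.Agent.P354I (X rm rp)
open Vale.Agent.P354XE (xs pt rd ch kr kx kp ka kap mir cyl ky)
open Vale.Agent.P354XM (sh rd_sh)
open Vale.Agent.P354YR
open Vale.Agent.P354YW (rf)
open Vale.Agent.P354YM (Jd)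
open Vale.Agent.P354RG (zh gz)

variable {M a r U V c : ℝ} {p : R4} {y z : X}

/-- The black hole, the projection, the scaling of U and V, and its generator. -/
def BH (M a : ℝ) : Set R4 := {p | xs p ≠ 0 ∧ 0 < p.1 ∧ kr M a p < rp M a}
def pj (M a : ℝ) (p : R4) : X := icyl M a (kr M a p) p
def sc (M a : ℝ) (p : R4) (l : ℝ) : R4 := (l * p.1, (ky M a (l * kx M a p) / rd p) • p.2)
def Zv (M a : ℝ) (p : R4) : R4 := kvec M a p (kU M a p) (kV M a p) 0

lemma at_df {E F : Type} [NormedAddCommGroup E] [NormedSpace ℝ E] [NormedAddCommGroup F]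
    [NormedSpace ℝ F] {f : E → F} {x : E} (h : ContDiffAt ℝ ∞ f x) : DifferentiableAt ℝ f x :=
  h.differentiableAt (by simp)

lemma bh_UV (hp : p ∈ BH M a) : 0 < kU M a p ∧ 0 < kV M a p := by
  obtain ⟨-, h1, h2⟩ := hp
  rw [kr] at h2
  simp only [kU, kV]
  constructor <;> nlinarith

lemma bh_of (h0 : xs p ≠ 0) (h1 : 0 < kU M a p) (h2 : 0 < kV M a p) : p ∈ BH M a :=
  ⟨h0, by simp only [kU, kV] at h1 h2; linarith, by rw [kr_eq]; nlinarith [mul_pos h1 h2]⟩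

lemma open_BH : IsOpen (BH M a) :=
  isOpen_iff_mem_nhds.2 fun _ hx => (open_ne.eventually_mem hx.1).and
    ((continuousAt_const.eventually_lt continuousAt_fst hx.2.1).and
      ((s_kr contDiffAt_id hx.1).continuousAt.eventually_lt continuousAt_const hx.2.2))

lemma s_pj (hp : p ∈ BH M a) : ContDiffAt ℝ ∞ (pj M a) p := by
  have k := sub_pos.2 hp.2.2
  have l : ContDiffAt ℝ ∞ (fun p => lc M a (kr M a p) p) p :=
    (((s_kV contDiffAt_id hp.1).div ((contDiffAt_const.sub (s_kr contDiffAt_id hp.1)).sqrt k.ne')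
      (Real.sqrt_pos.2 k).ne').log (div_pos (bh_UV hp).2 (Real.sqrt_pos.2 k)).ne').div_const _
  have := s_xs (pol_cd (τ := fun _ => 0) contDiffAt_const (l.exp.div (s_rd contDiffAt_id hp.1)
    (rd_pos hp.1).ne') ((contDiffAt_const (c := wc M a)).mul l).neg)
  simp only [pol, xs_pt] at this
  exact this

lemma sc_eq (p : R4) (l : ℝ) : sc M a p l = kp M a (l * kU M a p) (l * kV M a p) 0 (xs p) := by
  rw [kp_eq, rz_zero, show (l * kV M a p - l * kU M a p) / 2 = l * kx M a p by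
    simp only [kU, kV]; ring, show (l * kU M a p + l * kV M a p) / 2 = l * p.1 by
    simp only [kU, kV]; ring]
  rfl

lemma sc_one (hp : xs p ≠ 0) : sc M a p 1 = p := by
  rw [sc, one_mul, one_mul, ky_kx hp, div_self (rd_pos hp).ne', one_smul]

lemma rf_rz (c : ℝ) (z : X) : rf (rz c z) = rz (-c) (rf z) := by
  ext i; fin_cases i <;> simp [rz, rf]; ring

section
variable (h : |a| < M)
include h

lemma cyl_bh (hr : r < rp M a) (hy : y ≠ 0) :
    cyl M a r y ∈ BH M a ∧ kr M a (cyl M a r y) = r ∧ pj M a (cyl M a r y) = y :=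
  ⟨bh_of (kp_ne h hy) (cyl_U h hr hy) (cyl_V h hr hy), cyl_r h hr hy, by
    rw [pj, cyl_r h hr hy, icyl_cyl h hr hy]⟩

lemma cyl_pj (hp : p ∈ BH M a) : pj M a p ≠ 0 ∧ cyl M a (kr M a p) (pj M a p) = p := by
  obtain ⟨y, hy, e⟩ := (cyl_iff h hp.2.2 p).1 ⟨hp.1, hp.2.1, rfl⟩
  have k : pj M a p = y := by rw [e]; exact (cyl_bh h hp.2.2 hy).2.2
  rw [k]
  exact ⟨hy, e.symm⟩

/-- The projection and the radius are coordinates. -/
lemma ker_pj (hp : p ∈ BH M a) {v : R4} (h1 : fderiv ℝ (pj M a) p v = 0)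
    (h2 : fderiv ℝ (kr M a) p v = 0) : v = 0 := by
  have d := (at_df (s_cyl (r := fun q : ℝ × X => q.1) (z := fun q => q.2) (q := (kr M a p, pj M a p))
    h contDiffAt_fst hp.2.2 contDiffAt_snd (cyl_pj h hp).1)).hasFDerivAt.comp p
      ((at_df (s_kr contDiffAt_id hp.1)).hasFDerivAt.prodMk (at_df (s_pj hp)).hasFDerivAt)
  have e := (d.congr_of_eventuallyEq ((open_BH.eventually_mem hp).mono fun x hx =>
    (cyl_pj h hx).2.symm)).unique (hasFDerivAt_id p)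
  have k := congrArg (fun L : R4 →L[ℝ] R4 => L v) e
  simp only [ContinuousLinearMap.comp_apply, ContinuousLinearMap.prod_apply, id] at k
  rw [h1, h2, Prod.mk_zero_zero, map_zero] at k
  exact k.symm

lemma pj_kp (hU : 0 < U) (hV : 0 < V) (hz : z ≠ 0) : pj M a (kp M a U V c z) =
    (Real.exp (Real.log (V / √(U * V)) / ka M a) / ‖z‖) •
      rz (c - wc M a * (Real.log (V / √(U * V)) / ka M a)) z := by
  have := norm_pos_iff.2 hz
  have k := ky_pos h ((V - U) / 2)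
  rw [pj, icyl, lc, kp_r h hz, kp_V h hz, sub_sub_cancel, kp_rd h hz, kp_eq, xs_pt, rz_smul, rz_rz,
    smul_smul, neg_add_eq_sub]
  congr 1
  field_simp

lemma pj_act (hU : 0 < U) (hV : 0 < V) (hz : z ≠ 0) (t β φ : ℝ) :
    pj M a (kp M a (U * Real.exp (-(ka M a * t))) (V * Real.exp (ka M a * t)) (c + β) (rz φ z)) =
      Real.exp t • rz (β + φ - wc M a * t) (pj M a (kp M a U V c z)) := by
  have k := (ka_pos h).ne'
  have s := Real.sqrt_pos.2 (mul_pos hU hV)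
  rw [pj_kp h (by positivity) (by positivity) (norm_pos_iff.1 (by
    rw [rz_norm]; exact norm_pos_iff.2 hz)), pj_kp h hU hV hz, mul_mul_mul_comm, ← Real.exp_add,
    neg_add_cancel, Real.exp_zero, mul_one, mul_div_right_comm,
    Real.log_mul (by positivity) (Real.exp_pos _).ne', Real.log_exp, add_div,
    mul_div_cancel_left₀ _ k, rz_norm, rz_smul, rz_rz, rz_rz, smul_smul, Real.exp_add]
  congr 2 <;> ring

lemma mir_kp' (hz : z ≠ 0) : mir M a (kp M a U V c z) = kp M a V U (-c) (rf z) := by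
  have n := inv_pos.2 (norm_pos_iff.2 hz)
  have e : rf (rf (‖z‖⁻¹ • z)) = ‖z‖⁻¹ • z := by ext i; fin_cases i <;> simp [rf]
  have e' : rf (‖z‖⁻¹ • z) = ‖z‖⁻¹ • rf z := by ext i; fin_cases i <;> simp [rf]
  have := P354YW.mir_kp h V U (-c) (z := rf (‖z‖⁻¹ • z))
    ((P354YW.rf_norm _).trans (norm_smul_inv_norm hz))
  rwa [neg_neg, e, e', P354YW.kp_smul _ _ _ _ _ n, P354YW.kp_smul _ _ _ _ _ n] at this

/-- Shifts act by dilations and rotations. -/
lemma pj_sh (σ : Bool) (t φ : ℝ) : ∃ κ α, ∀ P, rm M a < rd P → rd P < rp M a →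
    pj M a (ch M a σ (sh t φ P)) = Real.exp κ • rz α (pj M a (ch M a σ P)) := by
  have e : ∀ P, kap M a (sh t φ P) = kp M a (pU M a P * Real.exp (-(ka M a * t)))
      (pV M a P * Real.exp (ka M a * t)) (pc M a P + -(Oh M a * t)) (rz φ (xs P)) := fun P => by
    have e1 : pV M a (sh t φ P) = pV M a P * Real.exp (ka M a * t) := by
      rw [pV, pV, rd_sh, mul_assoc, ← Real.exp_add, ← mul_add]; rfl
    rw [kap_eq, pU, e1, pU, pc, pc, rd_sh, Real.exp_neg, ← div_eq_mul_inv, div_div]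
    congr 1
    simp only [sh]; ring
  have u : ∀ P, rm M a < rd P → rd P < rp M a → 0 < pU M a P := fun P h1 h2 =>
    div_pos (by linarith) (pV_pos h1)
  cases σ
  · refine ⟨-t, Oh M a * t + -φ - wc M a * -t, fun P h1 h2 => ?_⟩
    have z0 := DI_ne h h1
    have z1 : rf (xs P) ≠ 0 := norm_pos_iff.1 (by rw [P354YW.rf_norm]; exact norm_pos_iff.2 z0)
    have := pj_act (c := -pc M a P) h (pV_pos h1) (u P h1 h2) z1 (-t) (Oh M a * t) (-φ)
    rw [← mir_kp' h z0, ← rf_rz, mul_neg, neg_neg, show -pc M a P + Oh M a * t =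
      -(pc M a P + -(Oh M a * t)) by ring, ← mir_kp' h (norm_pos_iff.1 (by
        rw [rz_norm]; exact norm_pos_iff.2 z0)), ← e] at this
    exact this
  · exact ⟨t, _, fun P h1 h2 => (congrArg _ (e P)).trans
      (pj_act h (u P h1 h2) (pV_pos h1) (DI_ne h h1) _ _ _)⟩

lemma sc_ne (hp : xs p ≠ 0) (l : ℝ) : xs (sc M a p l) ≠ 0 := sc_eq p l ▸ kp_ne h hp

lemma sc_r (hp : xs p ≠ 0) (l : ℝ) :
    kr M a (sc M a p l) = rp M a - l ^ 2 * (rp M a - kr M a p) := by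
  rw [sc_eq, kp_r h hp, kr_eq]; ring

lemma sc_cd (p : R4) : ContDiff ℝ ∞ (sc M a p) :=
  (contDiff_id.mul contDiff_const).prodMk ((((ky_cd h).comp
    (contDiff_id.mul contDiff_const)).div_const _).smul contDiff_const)

lemma sc_pj (hp : p ∈ BH M a) {l : ℝ} (hl : 0 < l) :
    sc M a p l ∈ BH M a ∧ pj M a (sc M a p l) = pj M a p := by
  obtain ⟨u, v⟩ := bh_UV hp
  refine ⟨⟨sc_ne h hp.1 l, mul_pos hl hp.2.1, ?_⟩, ?_⟩
  · rw [sc_r h hp.1]; nlinarith [mul_pos (pow_pos hl 2) (sub_pos.2 hp.2.2)]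
  conv_rhs => rw [← sc_one (M := M) (a := a) hp.1]
  rw [sc_eq, sc_eq, pj_kp h (by positivity) (by positivity) hp.1,
    pj_kp h (by positivity) (by positivity) hp.1, mul_mul_mul_comm l, Real.sqrt_mul (by positivity),
    Real.sqrt_mul_self hl.le, mul_div_mul_left _ _ hl.ne', one_mul, one_mul]

lemma sc_der (hp : xs p ≠ 0) : HasDerivAt (sc M a p) (Zv M a p) 1 := by
  obtain ⟨μ, d⟩ : ∃ μ : ℝ, HasDerivAt (sc M a p) (p.1, μ • p.2) 1 :=
    ⟨_, (hasDerivAt_mul_const _).prodMk ((((at_df (ky_cd h).contDiffAt).hasDerivAt.comp (1 : ℝ)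
      (hasDerivAt_mul_const _)).div_const _).smul_const _)⟩
  have Y := (kY_pos (M := M) (a := a) hp).ne'
  have e : ((p.1, μ • p.2) : R4) =
      kvec M a p (p.1 - μ * kY M a p / 2) (p.1 + μ * kY M a p / 2) 0 := by
    rw [kvec, zero_smul, add_zero]
    congr 2 <;> field_simp <;> ring
  have k := (at_df (s_kV (M := M) (a := a) contDiffAt_id hp)).hasFDerivAt.comp_hasDerivAt_of_eq 1 d
    (sc_one hp).symm
  rw [show (fun q => kV M a (id q)) ∘ sc M a p = fun l => l * kV M a p from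
    funext fun l => by rw [Function.comp, id, sc_eq, kp_V h hp]] at k
  have k1 := k.unique (hasDerivAt_mul_const _)
  rw [show fderiv ℝ (fun q => kV M a (id q)) p = fderiv ℝ (kV M a) p from rfl, fd_kV hp, e,
    (kvec_forms hp _ _ _).2.1] at k1
  rw [Zv, ← k1, show kU M a p = p.1 - μ * kY M a p / 2 by simp only [kU, kV] at k1 ⊢; linarith, ← e]
  exact d

lemma fd_Zv (hp : p ∈ BH M a) : fderiv ℝ (pj M a) p (Zv M a p) = 0 ∧
    fderiv ℝ (kr M a) p (Zv M a p) < 0 := by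
  refine ⟨((at_df (s_pj hp)).hasFDerivAt.comp_hasDerivAt_of_eq 1 (sc_der h hp.1)
    (sc_one hp.1).symm).unique ((hasDerivAt_const 1 (pj M a p)).congr_of_eventuallyEq
      ((lt_mem_nhds one_pos).mono fun l hl => (sc_pj h hp hl).2)), ?_⟩
  rw [fd_kr hp.1, Zv, (kvec_forms hp.1 _ _ _).1, (kvec_forms hp.1 _ _ _).2.1]
  nlinarith [mul_pos (bh_UV hp).1 (bh_UV hp).2]

/-- The generator is future timelike. -/
lemma Zv_ft (hp : p ∈ BH M a) (hr : rm M a < kr M a p) :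
    gK M a p (Zv M a p) (Zv M a p) < 0 ∧ gK M a p (XK M a p) (Zv M a p) < 0 := by
  have m : p ∈ DK M a := ⟨hp.1, hr⟩
  obtain ⟨u, v⟩ := bh_UV hp
  obtain ⟨e1, e2, e3, e4⟩ := kvec_forms (M := M) (a := a) hp.1 (kU M a p) (kV M a p) 0
  have S := cS_pos h m
  have R := sub_pos.2 hr
  have e := PE h p
  have r := kr_eq (M := M) (a := a) p
  have l : kl M a p (Zv M a p) = 2 * cS M a p * kU M a p := by
    rw [kl, Zv, e1, e2, e3, ← e, r]; ring
  have n : kn M a p (Zv M a p) = 2 * cS M a p * kV M a p := by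
    rw [kn, Zv, e1, e2, e3, ← e, r]; ring
  have G : kG M a p (Zv M a p) = 0 := by rw [kG, dQ_eq, Zv, e1, e2, e3]; ring
  constructor
  · rw [gK, nf, l, n, G, Zv, e4]
    have : 0 < 2 * cS M a p * kU M a p / ((kr M a p - rm M a) * cS M a p) *
      (2 * cS M a p * kV M a p) := by positivity
    simp only [zero_mul, mul_zero, add_zero, zero_div]
    linarith
  · rw [gK_XK h m, l, n, neg_lt_zero]; positivity

end

/-! ### The Kerr slice -/

/-- The functions H of the height, and the projection of the Kerr slice. -/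
def hh (j : Jd) (i : ℕ) (ζ : ℝ) : ℝ := j.H i (j.p0, Real.exp (-j.k * j.T), ζ)
def B0 (j : Jd) (y : X) : X :=
  rz (-hh j 3 (zh y)) !₂[hh j 2 (zh y) * y 0, hh j 2 (zh y) * y 1, ‖y‖ * hh j 1 (zh y)]

variable {j : Jd}

lemma j0_bh (hj : j.Is) (hy : y ≠ 0) : j.J0 y ∈ BH j.M j.a := by
  obtain ⟨e1, -, e3⟩ := P354YJ.j0_ci hj hy true
  have := e3.trans_lt (P354YJ.js_bh hj (P354YJ.p0_mem hj) hy true).1.2
  exact ⟨e1.1.1, P354YJ.time_pos e1 this, this⟩

lemma pj_j0 (hj : j.Is) (hy : y ≠ 0) : pj j.M j.a (j.J0 y) = B0 j y ∧ ‖B0 j y‖ = ‖y‖ := by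
  have p0 := P354YJ.p0_mem hj
  have h := (hj.hG.par _ p0).2.1
  have n := norm_pos_iff.2 hy
  obtain ⟨k1, k2, -⟩ := P354YW.jk _ _ _ _ _ _ hj.hG hj.hH _ p0 (pt j.T y) (by rwa [xs_pt])
    (P354YJ.hs0 hj)
  have e0 : rd (pt j.T y) = ‖y‖ := by rw [rd, xs_pt]
  have e1 : B0 j y = ‖y‖ • rz (-j.H 3 (P354YJ.ar j.k j.p0 (pt j.T y)))
      (P354YJ.dir j.k j.H true j.p0 (pt j.T y)) := by
    rw [← rz_smul, B0, P354YJ.dir, P354YJ.ar, xs_pt, e0]
    congr 1
    ext i; fin_cases i <;> simp [hh, pt, P354D.sgn] <;> field_simp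
  have e2 : ‖B0 j y‖ = ‖y‖ := by
    rw [e1, norm_smul, rz_norm, (k1 true).2.2.2.1, mul_one, norm_norm]
  have e3 : P354YJ.tb j.k j.p0 (pt j.T y) = Real.log ‖y‖ := by
    rw [P354YJ.tb, e0, show j.k / P354R.kap j.p0.1 j.p0.2.1 = 1 from P354YJ.lam_p0 hj, one_mul]
  have r := (k1 true).2.2.1.2
  rw [(k1 true).2.1] at r
  refine ⟨(congrArg _ (k2.trans ?_)).trans (cyl_bh h r (norm_pos_iff.1 (e2 ▸ n))).2.2, e2⟩
  rw [cyl_eq, e2, e1, P354YW.kp_smul _ _ _ _ _ n, P354YJ.ph, e3]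
  refine .trans ?_ (P354YW.kp_rz _ _ _ _ _ _ _).symm
  congr 1
  simp only [wc, P354R.omm, P354R.rm, rm]
  ring

lemma s_zh (hy : y ≠ 0) : ContDiffAt ℝ ∞ zh y :=
  (P354XK.c_co contDiffAt_id 2).div (P354XK.c_n contDiffAt_id hy) (norm_ne_zero_iff.2 hy)

/-- The inverse of B0, given the height. -/
def F0 (j : Jd) (q : X × ℝ) : X :=
  !₂[rz (hh j 3 q.2) q.1 0 / hh j 2 q.2, rz (hh j 3 q.2) q.1 1 / hh j 2 q.2, q.2 * ‖q.1‖]

lemma b0_ok (hj : j.Is) : InjOn (B0 j) {0}ᶜ ∧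
    ∀ y ≠ 0, ContDiffAt ℝ ∞ (B0 j) y ∧ Injective (fderiv ℝ (B0 j) y) := by
  have P := fun ζ (hζ : |ζ| ≤ 1) => hj.hH.pos _ (P354YJ.p0_mem hj) _
    ⟨(Real.exp_pos _).le, (P354YJ.hs0 hj).le⟩ ζ (hζ.trans (by linarith [hj.hG.pos0.2.2]))
  have s : ∀ i, ContDiff ℝ ∞ (hh j i) := fun i =>
    (hj.hH.smooth i).comp (contDiff_const.prodMk (contDiff_const.prodMk contDiff_id))
  have d : ∀ ζ, HasDerivAt (hh j 1) (gz (j.H 1) (j.p0, Real.exp (-j.k * j.T), ζ)) ζ := fun ζ =>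
    (((hj.hH.smooth 1).differentiable (by simp)) _).hasFDerivAt.comp_hasDerivAt ζ
      ((hasDerivAt_const ζ _).prodMk ((hasDerivAt_const ζ _).prodMk (hasDerivAt_id ζ)))
  have m : StrictMonoOn (hh j 1) (Icc (-1) 1) := strictMonoOn_of_deriv_pos (convex_Icc _ _)
    (s 1).continuous.continuousOn fun ζ hζ => by
      rw [(d ζ).deriv]
      exact (P ζ (abs_le.2 (interior_subset hζ : ζ ∈ Icc (-1 : ℝ) 1))).2.2.2.2.2.2
  have e1 : ∀ y ≠ 0, hh j 1 (zh y) = zh (B0 j y) := fun y hy => by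
    rw [zh, zh, (pj_j0 hj hy).2, eq_div_iff (norm_ne_zero_iff.2 hy), mul_comm]; rfl
  have e2 : ∀ y ≠ 0, F0 j (B0 j y, zh y) = y := fun y hy => by
    have k : hh j 2 (zh y) ≠ 0 := (P _ (P354YW.zh_abs y)).2.2.2.1.ne'
    have n := norm_ne_zero_iff.2 hy
    rw [F0, (pj_j0 hj hy).2, B0, rz_rz, add_neg_cancel, rz_zero]
    ext i; fin_cases i <;> simp [k]
    rw [zh, div_mul_cancel₀ _ n]
  refine ⟨fun y hy y' hy' e => ?_, fun y hy => ?_⟩
  · rw [← e2 y hy, ← e2 y' hy', e, m.injOn (abs_le.1 (P354YW.zh_abs y))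
      (abs_le.1 (P354YW.zh_abs y')) (by rw [e1 y hy, e1 y' hy', e])]
  have o := isOpen_compl_singleton.eventually_mem hy
  have c : ContDiffAt ℝ ∞ (B0 j) y := ((s_pj (j0_bh hj hy)).comp y
    (P354YJ.j0_cd hj hy)).congr_of_eventuallyEq (o.mono fun x hx => (pj_j0 hj hx).1.symm)
  have b0 : B0 j y ≠ 0 := norm_pos_iff.1 ((pj_j0 hj hy).2 ▸ norm_pos_iff.2 hy)
  refine ⟨c, (injective_iff_map_eq_zero _).2 fun v hv => ?_⟩
  have k1 := congrArg (fun L : X →L[ℝ] ℝ => L v) ((((d _).comp_hasFDerivAt y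
    (at_df (s_zh hy)).hasFDerivAt).congr_of_eventuallyEq (o.mono fun x hx => (e1 x hx).symm)).unique
      ((at_df (s_zh b0)).hasFDerivAt.comp y (at_df c).hasFDerivAt))
  simp only [ContinuousLinearMap.smul_apply, ContinuousLinearMap.comp_apply, hv, map_zero,
    smul_eq_mul, mul_eq_zero] at k1
  have k2 := k1.resolve_left (P _ (P354YW.zh_abs y)).2.2.2.2.2.2.ne'
  have f : DifferentiableAt ℝ (F0 j) (B0 j y, zh y) := by
    have c2 := fun i => ((s i).contDiffAt.comp (B0 j y, zh y) contDiffAt_snd)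
    have c3 := fun i => P354XK.c_co (contDiffAt_fst (p := (B0 j y, zh y))) i
    have k : hh j 2 (zh y) ≠ 0 := (P _ (P354YW.zh_abs y)).2.2.2.1.ne'
    refine at_df (contDiffAt_euclidean.2 fun i => ?_)
    fin_cases i
    exacts [(((c2 3).cos.mul (c3 0)).sub ((c2 3).sin.mul (c3 1))).div (c2 2) k,
      (((c2 3).sin.mul (c3 0)).add ((c2 3).cos.mul (c3 1))).div (c2 2) k,
      contDiffAt_snd.mul (P354XK.c_n contDiffAt_fst b0)]
  have k3 := congrArg (fun L : X →L[ℝ] X => L v) (((f.hasFDerivAt.comp y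
    ((at_df c).hasFDerivAt.prodMk (at_df (s_zh hy)).hasFDerivAt)).congr_of_eventuallyEq
      (o.mono fun x hx => (e2 x hx).symm)).unique (hasFDerivAt_id y))
  simp only [ContinuousLinearMap.comp_apply, ContinuousLinearMap.prod_apply, hv, k2,
    Prod.mk_zero_zero, map_zero] at k3
  exact k3.symm

end Vale.Agent.P354SL
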