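import Vale.Agent.P354SL.Pj
import Vale.Agent.P354YJ.Cls
import Vale.Agent.P354XE.Gt
import Vale.Agent.P354YO.Patch

/-!
Spacelike sections of the projection are slices.
-/

open scoped ContDiff
open Set Filter Topology Metric Function

noncomputable section

namespace Vale.Agent.P354SL

open Vale.Agent.P354n (R4)
open Vale.Agent.P354I (X rm rp Dat ee pd)
open Vale.Agent.P354XE (xs pt rd ch kr kx ka kap Tw Lor D0 Sl Tm Ft Ind En pb)
open Vale.Agent.P354YR
open Vale.Agent.P354J (PDy)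

variable {M a r1 r2 r3 : ℝ} {g : Tw} {D : Set R4} {Xf : R4 → R4} {J : X → R4} {Ψ : X → X}

lemma conn_of_path {S : Set R4} (h0 : ∀ y ≠ 0, pt 0 y ∈ S) (h : ∀ p ∈ S, ∃ γ : ℝ → R4,
    Continuous γ ∧ γ 1 = p ∧ (∃ y ≠ 0, γ 0 = pt 0 y) ∧ ∀ c ∈ Icc (0 : ℝ) 1, γ c ∈ S) :
    IsPreconnected S := by
  obtain ⟨y0, hy0⟩ := exists_ne (0 : X)
  have c0 : IsPreconnected (pt 0 '' {0}ᶜ) := conn0.image _ (by unfold pt; fun_prop)
  refine isPreconnected_of_forall (pt 0 y0) fun P hP => ?_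
  obtain ⟨γ, c, e1, ⟨y, hy, e0⟩, m⟩ := h P hP
  refine ⟨pt 0 '' {0}ᶜ ∪ γ '' Icc (0 : ℝ) 1, ?_, .inl ⟨y0, hy0, rfl⟩,
    .inr ⟨1, ⟨zero_le_one, le_rfl⟩, e1⟩, c0.union (pt 0 y) ⟨_, hy, rfl⟩
      ⟨0, ⟨le_rfl, zero_le_one⟩, e0⟩ (isPreconnected_Icc.image _ c.continuousOn)⟩
  rintro _ (⟨y, j, rfl⟩ | ⟨c, j, rfl⟩)
  exacts [h0 y j, m c j]

/-- The induced metric is positive. -/
lemma space {d : Dat} (hL : Lor g D Xf) (hd : PDy d) (hI : Ind g Xf J d) {y v : X} (hy : y ≠ 0)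
    (m : J y ∈ D) (hv : v ≠ 0) : 0 < g (J y) (fderiv ℝ J y v) (fderiv ℝ J y v) := by
  obtain ⟨G, n, -, -, -, k⟩ := hI y hy
  have b := P354XA.met_bil hL.met m
  have e : fderiv ℝ J y v = v 0 • pd 0 J y + v 1 • pd 1 J y + v 2 • pd 2 J y := by
    simp only [pd, ← map_smul, ← map_add]
    congr 1
    ext i; fin_cases i <;> simp [ee]
  have p := (hd.2 y hy).1.dotProduct_mulVec_pos (x := v.ofLp) (by simpa using hv)
  simp only [e, b.add_left, b.add_right, b.smul_left, b.smul_right, (k _ _).2.1]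
  simp only [dotProduct, Matrix.mulVec, Fin.sum_univ_three, star_trivial] at p
  linarith

theorem sl_of (h : |a| < M) (hL : Lor g D Xf) (hD : D0 M a r1 ⊆ D) (h12 : r1 < r2)
    (h3 : r3 < rp M a) (sm : ContDiffOn ℝ ∞ J {0}ᶜ)
    (hr : ∀ y ≠ 0, J y ∈ D0 M a r1 ∧ r2 < kr M a (J y) ∧ kr M a (J y) ≤ r3)
    (l : ∀ y ≠ 0, Ψ (pj M a (J y)) = y)
    (ri : ∀ w ≠ 0, Ψ w ≠ 0 ∧ pj M a (J (Ψ w)) = w ∧ ContDiffAt ℝ 1 Ψ w)
    (sp : ∀ y ≠ 0, ∀ v ≠ 0, 0 < g (J y) (fderiv ℝ J y v) (fderiv ℝ J y v))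
    (sg : ∃ y ≠ 0, g (J y) (Zv M a (J y)) (Zv M a (J y)) < 0 ∧
      g (J y) (Xf (J y)) (Zv M a (J y)) < 0) : ∃ r ρ, Sl M a r1 r2 r g Xf ρ J := by
  classical
  have bh : ∀ p ∈ D0 M a r1, kr M a p < rp M a → p ∈ BH M a := fun p hp k =>
    ⟨hp.1, hp.2.1.lt_of_ne fun e => by rw [kr, ← e] at k; nlinarith, k⟩
  have m : ∀ y ≠ 0, J y ∈ BH M a := fun y hy => bh _ (hr y hy).1 ((hr y hy).2.2.trans_lt h3)
  have sJ : ∀ y ≠ 0, ContDiffAt ℝ 1 J y := fun y hy =>
    (sm.contDiffAt (isOpen_compl_singleton.mem_nhds hy)).of_le (by simp)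
  obtain ⟨η, η0, h4⟩ : ∃ η > 0, r3 + η < rp M a := ⟨(rp M a - r3) / 2, by linarith, by linarith⟩
  let f : R4 → ℝ := fun p => kr M a (J (Ψ (pj M a p))) - kr M a p
  let ρ : R4 → ℝ := fun p => if p ∈ BH M a then max (f p) (-η) else -η
  have sΨ : ∀ p ∈ BH M a, ContDiffAt ℝ 1 (fun p => Ψ (pj M a p)) p := fun p hp =>
    (ri _ (cyl_pj h hp).1).2.2.comp p ((s_pj hp).of_le (by simp))
  have sk : ∀ p, xs p ≠ 0 → ContDiffAt ℝ 1 (kr M a) p := fun p hp =>
    (s_kr contDiffAt_id hp).of_le (by simp)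
  have sK : ∀ p ∈ BH M a, ContDiffAt ℝ 1 (fun w => kr M a (J (Ψ w))) (pj M a p) := fun p hp =>
    have k := ri _ (cyl_pj h hp).1
    ((sk _ (m _ k.1).1).comp _ (sJ _ k.1)).comp _ k.2.2
  have sf : ∀ p ∈ BH M a, ContDiffAt ℝ 1 f p := fun p hp =>
    ((sK p hp).comp p ((s_pj hp).of_le (by simp))).sub (sk p hp.1)
  have df : ∀ p ∈ BH M a, ∀ v, fderiv ℝ (pj M a) p v = 0 →
      fderiv ℝ f p v = -fderiv ℝ (kr M a) p v := fun p hp v hv => by
    have := ((((sK p hp).differentiableAt one_ne_zero).hasFDerivAt.comp p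
      (at_df (s_pj hp)).hasFDerivAt).sub ((sk p hp.1).differentiableAt one_ne_zero).hasFDerivAt).fderiv
    rw [show fderiv ℝ f p = _ from this]
    simp [hv]
  have f0 : ∀ y ≠ 0, f (J y) = 0 := fun y hy => by simp only [f, l y hy, sub_self]
  have lo : ∀ p, r3 + η ≤ kr M a p → ρ p = -η := fun p k => by
    by_cases j : p ∈ BH M a
    · exact (if_pos j).trans (max_eq_right (by
        simp only [f]; linarith [(hr _ (ri _ (cyl_pj h j).1).1).2.2]))
    · exact if_neg j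
  have ker : ∀ y ≠ 0, ∀ v ≠ 0, fderiv ℝ f (J y) v = 0 → 0 < g (J y) v v := fun y hy v v0 hv => by
    have dJ := ((sJ y hy).differentiableAt one_ne_zero).hasFDerivAt
    have dΨ := ((sΨ _ (m y hy)).differentiableAt one_ne_zero).hasFDerivAt
    have dp := (at_df (s_pj (m y hy))).hasFDerivAt
    have dq : HasFDerivAt (pj M a ∘ J) (fderiv ℝ (pj M a) (J y) ∘L fderiv ℝ J y)
      (Ψ (pj M a (J y))) := (l y hy).symm ▸ dp.comp y dJ
    have e1 := congrArg (fun L : R4 →L[ℝ] X => L v) (((dq.comp (J y)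
      dΨ).congr_of_eventuallyEq ((open_BH.eventually_mem (m y hy)).mono fun p hp =>
        (ri _ (cyl_pj h hp).1).2.1.symm)).unique dp)
    have e2 := fun w => congrArg (fun L : X →L[ℝ] ℝ => L w) ((((sf _ (m y hy)).differentiableAt
      one_ne_zero).hasFDerivAt.comp y dJ).unique ((hasFDerivAt_const 0 y).congr_of_eventuallyEq
        ((isOpen_compl_singleton.eventually_mem hy).mono f0)))
    simp only [ContinuousLinearMap.comp_apply, ContinuousLinearMap.zero_apply] at e1 e2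
    generalize fderiv ℝ (fun p => Ψ (pj M a p)) (J y) v = w at e1
    have k1 : fderiv ℝ (pj M a) (J y) (v - fderiv ℝ J y w) = 0 := by rw [map_sub, e1, sub_self]
    have k2 := df _ (m y hy) _ k1
    rw [map_sub, hv, e2, sub_self, zero_eq_neg] at k2
    obtain rfl := sub_eq_zero.1 (ker_pj h (m y hy) k1 k2)
    exact sp y hy w fun e => v0 (by rw [e, map_zero])
  have ne : ∀ y ≠ 0, fderiv ℝ f (J y) (Xf (J y)) ≠ 0 := fun y hy e => by
    have t := hL.tl _ (hD (hr y hy).1)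
    exact t.not_gt (ker y hy _ (fun j => t.ne (by
      rw [j, (hL.met.lin _ (hD (hr y hy).1) _).map_zero])) e)
  have po : ∀ y ≠ 0, 0 < fderiv ℝ f (J y) (Xf (J y)) := fun y hy => by
    obtain ⟨y0, hy0, s1, s2⟩ := sg
    have p0 : 0 < fderiv ℝ f (J y0) (Xf (J y0)) := P354XE.Tm.pos (Xf := Zv M a) ⟨sf _ (m _ hy0), by
      rw [df _ (m _ hy0) _ (fd_Zv h (m _ hy0)).1, neg_pos]; exact (fd_Zv h (m _ hy0)).2,
        ker _ hy0⟩ hL.met (hD (hr _ hy0).1) s1 ⟨hL.tl _ (hD (hr _ hy0).1), s2⟩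
    by_contra! k
    obtain ⟨z, hz, e⟩ := conn0.intermediate_value hy hy0
      (f := fun y => fderiv ℝ f (J y) (Xf (J y))) (fun z hz =>
        ((((sf _ (m z hz)).continuousAt_fderiv one_ne_zero).comp (sJ z hz).continuousAt).clm_apply
          ((hL.cont.continuousAt (hL.isOpen.mem_nhds (hD (hr z hz).1))).comp
            (sJ z hz).continuousAt)).continuousWithinAt) ⟨k, p0.le⟩
    exact ne z hz e
  refine ⟨r3 + η, ρ, ⟨h12, h4⟩, fun p hp => ContinuousAt.continuousWithinAt ?_, sm, ?_,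
    fun y hy => ⟨(hr y hy).1, P354XE.Tm.congr (c := 0) ⟨sf _ (m y hy), po y hy, ker y hy⟩ ?_⟩,
    fun p hp => ⟨fun e => ?_, ?_⟩, fun p _ k => by rw [lo p k.le]; linarith, fun p hp k => ?_,
    conn_of_path (fun y hy => ?_) fun p hp => ⟨sc M a p, (sc_cd h p).continuous, sc_one hp.1.1,
      ⟨_, sc_ne h hp.1.1 0, Prod.ext (zero_mul _) rfl⟩, fun c hc => ?_⟩⟩
  · by_cases j : p ∈ BH M a
    · exact ContinuousAt.congr ((sf p j).continuousAt.max continuousAt_const)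
        ((open_BH.eventually_mem j).mono fun x hx => (if_pos hx).symm)
    refine (continuousAt_const (y := -η)).congr ?_
    rcases lt_or_ge (r3 + η) (kr M a p) with k | k
    · exact (continuousAt_const.eventually_lt (sk p hp.1).continuousAt k).mono
        fun x hx => (lo x hx.le).symm
    · have t : p.1 < 0 := not_le.1 fun t => j (bh p ⟨hp.1, t, hp.2⟩ (k.trans_lt h4))
      exact (continuousAt_fst.eventually_lt continuousAt_const t).mono
        fun x hx => (if_neg fun i => hx.not_gt i.2.1).symm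
  · have c1 : Continuous fun y : ({0}ᶜ : Set X) => J y := sm.continuousOn.domRestrict
    have k : IsEmbedding ((BH M a).codRestrict _ fun y : ({0}ᶜ : Set X) => m y y.2) :=
      IsEmbedding.of_comp (c1.subtype_mk _) (ContinuousOn.domRestrict fun p hp =>
        (sΨ p hp).continuousAt.continuousWithinAt) (by
          rw [show (BH M a).domRestrict (fun p => Ψ (pj M a p)) ∘ (BH M a).codRestrict _
            (fun y : ({0}ᶜ : Set X) => m y y.2) = Subtype.val from funext fun y => l y y.2]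
          exact IsEmbedding.subtypeVal)
    exact IsEmbedding.subtypeVal.comp k
  · filter_upwards [open_BH.eventually_mem (m y hy), (continuousAt_const (y := -η)).eventually_lt
      (sf _ (m y hy)).continuousAt (by rw [f0 y hy]; linarith)] with x h1 h2
    exact (if_pos h1).trans ((max_eq_left h2.le).trans (zero_add _).symm)
  · by_cases j : p ∈ BH M a
    · rw [show ρ p = max (f p) (-η) from if_pos j] at e
      have e1 : f p = 0 := (max_eq_iff.1 e).elim (·.1) fun k => by linarith [k.1]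
      obtain ⟨k1, k2, -⟩ := ri _ (cyl_pj h j).1
      refine ⟨_, k1, ?_⟩
      rw [← (cyl_pj h (m _ k1)).2, k2, sub_eq_zero.1 e1, (cyl_pj h j).2]
    · rw [show ρ p = -η from if_neg j] at e
      linarith
  · rintro ⟨y, hy, rfl⟩
    exact (if_pos (m y hy)).trans (by rw [f0 y hy]; exact max_eq_left (by linarith))
  · obtain ⟨y0, hy0⟩ := exists_ne (0 : X)
    have j := bh p hp (by linarith [(hr y0 hy0).2])
    refine lt_of_lt_of_eq (lt_max_of_lt_left ?_) (if_pos j).symm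
    simp only [f]; linarith [(hr _ (ri _ (cyl_pj h j).1).1).2.1]
  · obtain ⟨y0, hy0⟩ := exists_ne (0 : X)
    have e : rp M a ≤ kr M a (pt 0 y) := by
      show _ ≤ rp M a + kx M a (pt 0 y) ^ 2 - 0 ^ 2
      nlinarith
    refine ⟨⟨by rwa [xs_pt], le_rfl, by linarith [(hr y0 hy0).2]⟩, ?_⟩
    rw [lo _ (by linarith)]; linarith
  · have e := sc_r h hp.1.1 c
    have c2 : c ^ 2 ≤ 1 := pow_le_one₀ hc.1 hc.2
    obtain ⟨y0, hy0⟩ := exists_ne (0 : X)
    rcases le_or_gt (rp M a) (kr M a (sc M a p c)) with k | k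
    · refine ⟨⟨sc_ne h hp.1.1 c, mul_nonneg hc.1 hp.1.2.1, by linarith [(hr y0 hy0).2]⟩, ?_⟩
      rw [lo _ (by linarith)]; linarith
    have k1 : kr M a p < rp M a := by by_contra! i; nlinarith [sq_nonneg c]
    have c0 : 0 < c := hc.1.lt_of_ne fun i => by rw [e, ← i] at k; simp at k
    have j := bh p hp.1 k1
    have k2 : kr M a p ≤ kr M a (sc M a p c) := by nlinarith
    have k3 := hp.2
    rw [show ρ p = max (f p) (-η) from if_pos j, max_lt_iff] at k3
    refine ⟨⟨sc_ne h hp.1.1 c, mul_nonneg hc.1 hp.1.2.1, hp.1.2.2.trans_le k2⟩,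
      lt_of_eq_of_lt (if_pos (sc_pj h j c0).1) (max_lt ?_ k3.2)⟩
    simp only [f, (sc_pj h j c0).2] at k3 ⊢
    linarith [k3.1]

/-- The time orientation near one point. -/
theorem sign (h : |a| < M) (h1 : rm M a < r1) {P : R4} (hP : P ∈ BH M a) (hr : r1 < kr M a P) :
    ∀ᶠ w : R4 × ℝ × ℝ in 𝓝 (P, 0, 0), kin M a w.1 ∈ En M a r1 w.2.1 ∧ rd (kin M a w.1) ≤ 2 * M ∧
      ∀ g D Xf Y, Lor g D Xf → w.1 ∈ D → fderiv ℝ (kap M a) (kin M a w.1) Y = Xf w.1 → 0 < Y.1 →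
        (∀ v, |pb (kap M a) g (kin M a w.1) v v - P354XE.gin M a (kin M a w.1) v v| ≤
          w.2.2 * ‖v‖ ^ 2) → g w.1 (Zv M a w.1) (Zv M a w.1) < 0 ∧ g w.1 (Xf w.1) (Zv M a w.1) < 0 := by
  obtain ⟨ε0, e0, H⟩ := P354YJ.end_pt h ((rm_nn h).trans_lt h1)
  have c := isCh h true
  have mE : ∀ p ∈ BH M a, r1 < kr M a p → p ∈ DE M a true := fun p j k =>
    ⟨⟨j.1, h1.trans k⟩, (bh_UV j).2⟩
  have m := mE P hP hr
  have cZ : ContDiffAt ℝ ∞ (Zv M a) P :=
    s_kvec hP.1 (s_kU contDiffAt_id hP.1) (s_kV contDiffAt_id hP.1) contDiffAt_const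
  have c1 := (((s_chr open_DK (gK_met h) m.1 cZ cZ cZ).1.continuousAt.comp_of_eq
    (continuousAt_fst (p := (P, (0 : ℝ), (0 : ℝ)))) rfl).add (continuousAt_snd.snd.mul
      (((((s_kin m).continuousAt_fderiv (by simp)).clm_apply cZ.continuousAt).norm.pow 2).comp_of_eq
        continuousAt_fst rfl))).eventually_lt (continuousAt_const (y := 0))
          (by simpa using (Zv_ft h hP m.1.2).1)
  have c2 := (continuousAt_snd (p := (P, (0 : ℝ), (0 : ℝ)))).fst.eventually_lt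
    ((continuousAt_const (y := ka M a)).mul ((s_kin m).continuousAt.comp_of_eq
      continuousAt_fst rfl).fst).rexp (Real.exp_pos _)
  filter_upwards [c1, c2, continuousAt_fst.eventually (open_BH.eventually_mem hP),
    continuousAt_fst.eventually (continuousAt_const.eventually_lt
      (s_kr contDiffAt_id hP.1).continuousAt hr),
    continuousAt_snd.snd.eventually (gt_mem_nhds e0)] with ⟨p, θ, ε⟩ k1 k2 k3 k4 k5
  have m := mE p k3 k4
  have e1 := kap_kin h m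
  have e2 := kin_rd h m.1
  have mI := kin_mem h m.1
  have e3 : fderiv ℝ (kap M a) (kin M a p) (fderiv ℝ (kin M a) p (Zv M a p)) = Zv M a p :=
    congrArg (fun L : R4 →L[ℝ] R4 => L (Zv M a p)) ((((at_df (s_kap h mI)).hasFDerivAt.comp p
      (at_df (s_kin m)).hasFDerivAt).congr_of_eventuallyEq (((open_DE true).eventually_mem m).mono
        fun x hx => (kap_kin h hx).symm)).unique (hasFDerivAt_id p))
  refine ⟨⟨e2 ▸ k4, k2.le, e1.symm ▸ k3.2.1.le⟩, ?_, fun g D Xf Y hL hp y1 y2 y3 => ?_⟩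
  · have := Real.sqrt_le_iff.2 ⟨(M_pos h).le, sub_le_self (M ^ 2) (sq_nonneg a)⟩
    have := k3.2.2
    rw [e2]; rw [rp] at this; linarith
  simp only [Pi.add_apply, Pi.mul_apply, Function.comp, Pi.pow_apply] at k1
  generalize fderiv ℝ (kin M a) p (Zv M a p) = Z at k1 e3
  have g1 : ∀ v, P354XE.gin M a (kin M a p) v Z =
      gK M a p (fderiv ℝ (kap M a) (kin M a p) v) (Zv M a p) := fun v => by
    rw [kap_gK h mI, e1, e3]
  have t1 : pb (kap M a) g (kin M a p) Z Z < 0 := by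
    have := (abs_le.1 (y3 Z)).2
    rw [g1, e3] at this
    linarith
  have t2 : 0 < Z.1 := by
    have o := c.ori _ mI
    have t := (gin_lor h).tl _ mI
    simp only [ch, cond_true, e1] at o
    rw [kap_gK h mI, e1] at t
    have := P354YO.cone_trans (gK_lor h) m.1 t ((gK_lor h).tl _ m.1) (Zv_ft h k3 m.1.2).1.le
      ((gK_met h).symm _ m.1 _ _ ▸ o) (Zv_ft h k3 m.1.2).2
    rw [← g1, XI_gin (DI_ne h mI), neg_lt_zero] at this
    exact pos_of_mul_pos_left (mul_comm Z.1 _ ▸ this) ((sq_nonneg _).trans (P354XA.Sg_ge a _))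
  have t3 := P354YJ.cone (P354YJ.pb_bil (P354XA.met_bil hL.met (e1.symm ▸ hp)))
    (fun a b => hL.met.symm _ (e1.symm ▸ hp) _ _) (ContinuousLinearMap.fst ℝ ℝ _)
    (H ε k5.le _ _ (e2 ▸ k4.le) y3).1 y2 t2 (by rw [pb, y1, e1]; exact hL.tl _ hp) t1
  rw [pb, e1, e3] at t1
  rw [pb, e1, e3, y1] at t3
  exact ⟨t1, t3⟩

end Vale.Agent.P354SL
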