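import Vale.Agent.P354SL.Sl
import Vale.Agent.P354XM.Sw
import Vale.Agent.P354YM.G0

/-!
SLC: admissible slices are slices in the sense of GT.
-/

open scoped ContDiff
open Set Filter Topology Metric Function

noncomputable section

namespace Vale.Agent.P354SL

open Vale.Agent.P354n (R4)
open Vale.Agent.P354I (X P3 rm rp)
open Vale.Agent.P354D (sgn)
open Vale.Agent.P354XE (xs pt rd ch kr kap Par D0)
open Vale.Agent.P354XA (linL lin_eq)
open Vale.Agent.P354XU (Jt L4)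
open Vale.Agent.P354XM (sh rot rot_ap rot_norm sh_eq sh_sh sh_zero rd_sh lin_inv iq_cd sh_cd dl_cd)
open Vale.Agent.P354YR
open Vale.Agent.P354YM
open Vale.Agent.P354YJ (shell_cpt j0_cd js_cd p0_mem j0_eq abs_lg)

variable {H : Type} [NormedAddCommGroup H] [NormedSpace ℝ H] {j : Jd}

lemma Cl.congr {ε : ℝ} {f f' g g' : X → H} {z : X} (h : Cl ε f g z) (e : f' =ᶠ[𝓝 z] f)
    (e' : g' =ᶠ[𝓝 z] g) : Cl ε f' g' z :=
  ⟨h.1.congr_of_eventuallyEq e, by rw [e.eq_of_nhds, e'.eq_of_nhds]; exact h.2.1,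
    by rw [e.fderiv_eq, e'.fderiv_eq]; exact h.2.2⟩

lemma jt1 {u : X → R4} {z : X} {c : ℝ} (h : Jt 13 u z c) : ‖u z‖ ≤ c ∧ ‖fderiv ℝ u z‖ ≤ c :=
  ⟨norm_iteratedFDeriv_zero.symm.trans_le (h 0 (by simp)),
    (norm_iteratedFDeriv_one u).symm.trans_le (h 1 (by simp))⟩

lemma near_mono {q : Par} {M a e e' : ℝ} (h : q.Near M a e) (k : e ≤ e') : q.Near M a e' :=
  ⟨h.1.trans_le k, h.2.1.trans_le k, h.2.2.1.trans_le k, h.2.2.2.1,
    fun i l => (h.2.2.2.2 i l).trans_le k⟩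

lemma linL_near {q : Par} {M a e : ℝ} (h : q.Near M a e) : ‖linL q - 1‖ ≤ 3 * e := by
  have e0 : 0 ≤ e := (abs_nonneg _).trans h.1.le
  refine ContinuousLinearMap.opNorm_le_bound _ (by positivity) fun v => ?_
  have k : ∀ {x y : ℝ}, |x| < e → |y| ≤ ‖v‖ → |x * y| ≤ e * ‖v‖ := fun h1 h2 => by
    rw [abs_mul]; exact mul_le_mul h1.le h2 (abs_nonneg _) e0
  have v0 : |v.1| ≤ ‖v‖ := norm_fst_le v
  have v1 : |v.2.1| ≤ ‖v‖ := (norm_fst_le v.2).trans (norm_snd_le v)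
  have v2 : |v.2.2.1| ≤ ‖v‖ := (norm_fst_le v.2.2).trans ((norm_snd_le v.2).trans (norm_snd_le v))
  have v3 : |v.2.2.2| ≤ ‖v‖ := (norm_snd_le v.2.2).trans ((norm_snd_le v.2).trans (norm_snd_le v))
  have r : ∀ i, |(q.R - 1) i 0 * v.2.1 + (q.R - 1) i 1 * v.2.2.1 + (q.R - 1) i 2 * v.2.2.2| ≤
      3 * e * ‖v‖ := fun i => (abs_add_three _ _ _).trans (by
    linarith [k (h.2.2.2.2 i 0) v1, k (h.2.2.2.2 i 1) v2, k (h.2.2.2.2 i 2) v3])
  have n := mul_nonneg e0 (norm_nonneg v)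
  rw [show (linL q - 1) v = q.lin v - v from rfl, lin_eq]
  refine norm_prod_le_iff.2 ⟨(le_of_eq ?_).trans ((k h.2.2.1 v0).trans (by linarith)),
    norm_prod_le_iff.2 ⟨(le_of_eq ?_).trans (r 0), norm_prod_le_iff.2
      ⟨(le_of_eq ?_).trans (r 1), (le_of_eq ?_).trans (r 2)⟩⟩⟩ <;>
    refine congrArg abs ?_ <;> simp <;> ring

lemma rot_rot (φ : ℝ) (v : R4) : rot (-φ) (rot φ v) = v := by
  rw [rot_ap, rot_ap, sh_sh, add_zero, neg_add_cancel, sh_zero, id]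

/-- The shape of the slice on the ends. -/
lemma ends (hj : j.Is) {π : R4 → H} (hπ : ∀ p ∈ BH j.M j.a, ContDiffAt ℝ 1 π p) {ε : ℝ}
    (hε : 0 < ε) : ∃ e > 0, ∀ q : Par, q.Near j.M j.a e → ∀ σ J x c φ, ContDiffOn ℝ ∞ J {0}ᶜ →
      (∀ y ≠ 0, J y ∈ DE j.M j.a σ) → ∀ e' ≤ e, LocAt j 13 J q σ {0}ᶜ (Icc (-1) 1) x c φ e' →
      ∀ z ≠ 0, |ln z| ≤ 1 → Cl ε (fun z => π (ch j.M j.a σ (sh (-(q.l * c)) (-φ)
        (ci j.M j.a σ (J (dl σ x z)))))) (fun z => π (j.J0 z)) z := by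
  have p0 := p0_mem hj
  have h : |j.a| < j.M := (hj.hG.par _ p0).2.1
  have k := fun σ => pert (Θ := fun w : (P3 × L4) × X × R4 =>
    π (ch j.M j.a σ (w.1.2 (j.Js σ w.1.1 w.2.1) + w.2.2))) (e0 := (j.p0, 1)) (shell_cpt 1)
    (fun z hz => by
      have c := (js_cd hj p0 hz.1 σ).comp (((j.p0, (1 : L4)), z, (0 : R4)))
        (f := fun w : (P3 × L4) × X × R4 => (w.1.1, w.2.1)) (by fun_prop)
      refine ContDiffAt.comp (g := π) _ (hπ _ ?_) (ContDiffAt.of_le (n := ∞) (ContDiffAt.comp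
        (g := ch j.M j.a σ) _ ((isCh h σ).pull.smooth.contDiffAt (open_DI.mem_nhds ?_))
          ((contDiffAt_fst.snd.clm_apply c).add contDiffAt_snd.snd)) (by simp))
      · simpa [← j0_eq hj hz.1 σ] using j0_bh hj hz.1
      · simpa [DI, Jd.p0] using (P354YJ.js_bh hj p0 hz.1 σ).1.1) hε
  choose δ δ0 k using k
  obtain ⟨e, ⟨l1, l3, l2⟩, e0⟩ := (((eventually_le_nhds (show (0 : ℝ) < 1 / 3 by norm_num)).and
    ((eventually_lt_nhds hj.hG.pos0.2.1).and (eventually_all.2 fun σ =>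
      ContinuousAt.eventually_lt (f := fun e : ℝ => 12 * e) (by fun_prop) continuousAt_const
        (by simpa using δ0 σ)))).filter_mono nhdsWithin_le_nhds |>.and
          (self_mem_nhdsWithin (s := Ioi 0))).exists
  replace e0 : 0 < e := e0
  refine ⟨e, e0, fun q hq σ J x c φ hJ mJ e' he hl z hz h1 => ?_⟩
  have l0 : q.l ≠ 0 := fun i => by have := hq.2.2.1; rw [i] at this; norm_num at this; linarith
  have n1 := linL_near hq
  have n2 : ‖linL q‖ ≤ 2 := by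
    have := norm_le_norm_add_norm_sub' (linL q) 1
    linarith [show ‖(1 : L4)‖ ≤ 1 from ContinuousLinearMap.norm_id_le]
  have n3 : ‖rot (-φ) ∘L linL q‖ ≤ 4 := (ContinuousLinearMap.opNorm_comp_le _ _).trans (by
    nlinarith [rot_norm (-φ), norm_nonneg (linL q), norm_nonneg (rot (-φ))])
  have n4 : ‖rot (-φ) ∘L linL q ∘L rot φ - 1‖ ≤ 12 * e := by
    rw [show rot (-φ) ∘L linL q ∘L rot φ - 1 = rot (-φ) ∘L (linL q - 1) ∘L rot φ by
      refine ContinuousLinearMap.ext fun v => ?_; simp [rot_rot]]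
    refine (ContinuousLinearMap.opNorm_comp_le _ _).trans ((mul_le_mul (rot_norm _)
      ((ContinuousLinearMap.opNorm_comp_le _ _).trans (mul_le_mul n1 (rot_norm _) (norm_nonneg _)
        (by positivity))) (norm_nonneg _) zero_le_two).trans (by linarith))
  have pn : ‖pp j.M q - j.p0‖ ≤ e := norm_prod_le_iff.2 ⟨hq.1.le, norm_prod_le_iff.2
    ⟨hq.2.1.le, by simpa [pp, Jd.p0] using e0.le⟩⟩
  obtain ⟨u1, u2⟩ := jt1 (hl z hz (abs_le.1 ((abs_lg σ z).trans_le h1)) (dl_ne hz)).2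
  have du := at_df (((iq_cd h q (mJ _ (dl_ne hz))).comp z ((hJ.contDiffAt
    (isOpen_compl_singleton.mem_nhds (dl_ne hz))).comp z (dl_cd σ x z))).sub
      ((sh_cd c φ).contDiffAt.comp z ((js_cd hj (mem_ball_iff_norm.2 (pn.trans_lt l3)) hz σ).comp z
        (f := fun z => (pp j.M q, z)) (contDiffAt_const.prodMk contDiffAt_id))))
  have d := (rot (-φ) ∘L linL q).hasFDerivAt.comp z du.hasFDerivAt
  refine (k σ (pp j.M q, rot (-φ) ∘L linL q ∘L rot φ) (norm_prod_le_iff.2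
    ⟨pn.trans (by linarith [l2 σ]), n4.trans (l2 σ).le⟩) z ⟨hz, h1⟩ _ d.differentiableAt
      (((rot (-φ) ∘L linL q).le_of_opNorm_le_of_le n3 u1).trans (by linarith [l2 σ])) (by
        rw [d.fderiv]
        exact (ContinuousLinearMap.opNorm_comp_le _ _).trans ((mul_le_mul n3 u2 (norm_nonneg _)
          (by norm_num)).trans (by linarith [l2 σ])))).congr (.of_forall fun w => ?_)
    ((eventually_ne_nhds hz).mono fun w hw => by simp [j0_eq hj hw σ])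
  have e1 : linL q (iq j.M j.a σ q (J (dl σ x w))) = ci j.M j.a σ (J (dl σ x w)) :=
    lin_inv hq.2.2.2.1 l0 _
  have e2 : linL q (c, 0) = (q.l * c, 0) := (lin_eq q _).trans (by simp)
  have e3 : rot (-φ) (q.l * c, 0) = (q.l * c, 0) := by simp [rot_ap, sh]
  simp only [Function.comp, ContinuousLinearMap.comp_apply, map_sub, sh_eq, map_add, e1, e2, e3]
  congr 2
  rw [show ((-(q.l * c), 0) : R4) = -(q.l * c, 0) by simp]
  abel

/-- The properties of a model on a shell. -/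
def Md (W : ℝ) (F : X → X) : Prop := InjOn F {z | z ≠ 0 ∧ |ln z| ≤ W} ∧ ∀ z ≠ 0, |ln z| ≤ W →
  DifferentiableAt ℝ F z ∧ Injective (fderiv ℝ F z) ∧ F z ≠ 0 ∧ |ln (F z) - ln z| ≤ 1 / 8

lemma shell (hj : j.Is) (W : ℝ) : ∃ ε > 0, ∀ F : X → X,
    (∀ z ≠ 0, |ln z| ≤ W + 1 / 2 → Cl ε F (fun z => pj j.M j.a (j.J0 z)) z) → Md W F := by
  obtain ⟨b1, b2⟩ := b0_ok hj
  obtain ⟨ε, e0, k⟩ := loc (O := {z | z ≠ 0 ∧ |ln z| < W + 1 / 2}) (shell_cpt W)
    (isOpen_iff_mem_nhds.2 fun z hz => (eventually_ne_nhds hz.1).and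
      ((ln_ct hz.1).abs.eventually_lt continuousAt_const hz.2))
    (fun z hz => ⟨hz.1, hz.2.trans_lt (by linarith)⟩)
    (fun z hz => ⟨(b2 z hz.1).1.of_le (by simp), (b2 z hz.1).2⟩) (b1.mono fun z hz => hz.1)
  refine ⟨min ε (Real.exp (-W) / 16), by positivity, fun F hF => ?_⟩
  have c : ∀ z ≠ 0, |ln z| ≤ W + 1 / 2 → Cl (min ε (Real.exp (-W) / 16)) F (B0 j) z :=
    fun z hz l => (hF z hz l).congr .rfl
      ((eventually_ne_nhds hz).mono fun w hw => (pj_j0 hj hw).1.symm)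
  obtain ⟨k1, k2⟩ := k F fun z hz => have i := c z hz.1 hz.2.le
    ⟨i.1, i.2.1.trans (min_le_left _ _), i.2.2.trans (min_le_left _ _)⟩
  refine ⟨k1, fun z hz l => ?_⟩
  have i := c z hz (by linarith)
  have n := norm_pos_iff.2 hz
  have := log_close (a := ‖F z‖) n (by
    have := (abs_norm_sub_norm_le _ _).trans (i.2.1.trans (min_le_right _ _))
    rw [(pj_j0 hj hz).2] at this
    linarith [(Real.le_log_iff_exp_le n).1 (abs_le.1 l).1])
  exact ⟨i.1, k2 z ⟨hz, l⟩, norm_pos_iff.1 this.1, this.2⟩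

lemma pair {W τ κ α : ℝ} {F Φ : X → X} (hF : Md W F) (d : ∀ y ≠ 0, DifferentiableAt ℝ Φ y)
    (e : ∀ z ≠ 0, Φ (Real.exp τ • z) = Real.exp κ • rz α (F z)) {y y' : X} (hy : y ≠ 0)
    (hy' : y' ≠ 0) (l : |ln y - τ| ≤ W) (l' : |ln y' - τ| ≤ W) :
    (Injective (fderiv ℝ Φ y) ∧ Φ y ≠ 0) ∧ (Φ y = Φ y' → y = y') ∧
      |ln (Φ y) - ln (Φ y') - (ln y - ln y')| ≤ 1 / 4 := by
  have s : ∀ y : X, Real.exp τ • Real.exp (-τ) • y = y := fun y => by
    rw [smul_smul, ← Real.exp_add, add_neg_cancel, Real.exp_zero, one_smul]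
  have n : ∀ {c : ℝ} {y : X}, y ≠ 0 → Real.exp c • y ≠ 0 := smul_ne_zero (Real.exp_pos _).ne'
  obtain ⟨z, hz, rfl⟩ : ∃ z ≠ 0, y = Real.exp τ • z := ⟨_, n hy, (s y).symm⟩
  obtain ⟨z', hz', rfl⟩ : ∃ z ≠ 0, y' = Real.exp τ • z := ⟨_, n hy', (s y').symm⟩
  rw [ln_smul hz, add_sub_cancel_left] at l
  rw [ln_smul hz', add_sub_cancel_left] at l'
  obtain ⟨a1, a2, a3, a4⟩ := hF.2 z hz l
  obtain ⟨-, -, b3, b4⟩ := hF.2 z' hz' l'
  have r : ∀ {w : X}, w ≠ 0 → rz α w ≠ 0 ∧ ln (rz α w) = ln w := fun hw =>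
    ⟨norm_pos_iff.1 (by rw [rz_norm]; exact norm_pos_iff.2 hw), by rw [ln, rz_norm, ln]⟩
  refine ⟨⟨(injective_iff_map_eq_zero _).2 fun v hv => ?_, e z hz ▸ n (r a3).1⟩, fun k => ?_, ?_⟩
  · have g : DifferentiableAt ℝ (fun w => Real.exp (-κ) • rz (-α) w) (Φ (Real.exp τ • z)) := by
      refine (at_df (f := rz (-α)) (contDiffAt_euclidean.2 fun i => ?_)).const_smul (Real.exp (-κ))
      have c := fun i => P354XK.c_co (contDiffAt_id (x := Φ (Real.exp τ • z))) i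
      fin_cases i
      exacts [(contDiffAt_const.mul (c 0)).sub (contDiffAt_const.mul (c 1)),
        (contDiffAt_const.mul (c 0)).add (contDiffAt_const.mul (c 1)), c 2]
    have k := congrArg (fun L : X →L[ℝ] X => L (Real.exp (-τ) • v)) (((g.hasFDerivAt.comp z
      ((d _ hy).hasFDerivAt.comp z ((hasFDerivAt_id z).const_smul
        (Real.exp τ)))).congr_of_eventuallyEq ((eventually_ne_nhds hz).mono fun w hw => by
          simp only [Function.comp, Pi.smul_apply, id, e w hw, rz_smul, rz_rz, neg_add_cancel, rz_zero,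
            smul_smul, ← Real.exp_add, Real.exp_zero, one_smul])).unique a1.hasFDerivAt)
    simp only [ContinuousLinearMap.comp_apply, ContinuousLinearMap.smul_apply,
      ContinuousLinearMap.id_apply, s, hv, map_zero] at k
    rw [← s v, (injective_iff_map_eq_zero _).1 a2 _ k.symm, smul_zero]
  · rw [e z hz, e z' hz'] at k
    rw [hF.1 ⟨hz, l⟩ ⟨hz', l'⟩ (P354YW.rz_inj (smul_right_injective _ (Real.exp_pos _).ne' k))]
  · rw [e z hz, e z' hz', ln_smul (r a3).1, ln_smul (r b3).1, (r a3).2, (r b3).2, ln_smul hz,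
      ln_smul hz']
    have := abs_le.1 a4
    have := abs_le.1 b4
    exact abs_le.2 ⟨by linarith, by linarith⟩

/-- **SLC.** -/
theorem slc (hD : DAT) : SLC := fun j r1 r0 r2 s δ hj hB hR => by
  have h := hB.lt
  obtain ⟨x1, H1⟩ := hD j r1 r0 r2 s δ hj hB hR
  obtain ⟨C, H2⟩ := P354YJ.chain j r1 r0 r2 s δ hj hB hR
  refine ⟨max x1 1, fun x0 hx => ?_⟩
  have x1' : 1 ≤ x0 := (le_max_right _ _).trans hx
  obtain ⟨e1, p1, E1⟩ := H1 x0 ((le_max_left _ _).trans hx) 1 one_pos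
  obtain ⟨e2, p2, E2⟩ := H2 x0 x1'
  have sp : ∀ p ∈ BH j.M j.a, ContDiffAt ℝ 1 (pj j.M j.a) p := fun p hp => (s_pj hp).of_le (by simp)
  have sk : ∀ p ∈ BH j.M j.a, ContDiffAt ℝ 1 (kr j.M j.a) p := fun p hp =>
    (s_kr contDiffAt_id hp.1).of_le (by simp)
  obtain ⟨ε1, q1, S1⟩ := shell hj (1 / 2)
  obtain ⟨ε2, q2, S2⟩ := shell hj (x0 + 1 / 2)
  obtain ⟨a2, q3, S3⟩ := (shell_cpt 0).exists_forall_le' (a := 0)
    (f := fun z => rp j.M j.a - kr j.M j.a (j.J0 z)) (fun z hz => (continuousAt_const.sub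
      ((sk _ (j0_bh hj hz.1)).continuousAt.comp (j0_cd hj hz.1).continuousAt)).continuousWithinAt)
    fun z hz => sub_pos.2 (j0_bh hj hz.1).2.2
  obtain ⟨e3, p3, E3⟩ := ends hj sp q1
  obtain ⟨e4, p4, E4⟩ := ends hj sk (half_pos q3)
  obtain ⟨e5, p5, E5⟩ := pert (Θ := fun w : ℝ × X × R4 => pj j.M j.a (j.J0 w.2.1 + w.2.2)) (e0 := 0)
    (shell_cpt (x0 + 1)) (fun z hz => ContDiffAt.comp (g := pj j.M j.a) _
      (sp _ (by simpa using j0_bh hj hz.1)) ((ContDiffAt.comp (g := j.J0) ((0 : ℝ), z, (0 : R4))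
        ((j0_cd hj hz.1).of_le (by simp)) contDiffAt_snd.fst).add contDiffAt_snd.snd)) q2
  obtain ⟨y0, hy0, n0⟩ : ∃ y0 : X, y0 ≠ 0 ∧ |Real.log ‖y0‖| = 0 :=
    ⟨EuclideanSpace.single 0 1, by simp⟩
  obtain ⟨e6, p6, E6⟩ := Metric.eventually_nhds_iff.1 (sign h hB.r1.1 (j0_bh hj hy0)
    (by rw [(P354YJ.j0_ci hj hy0 true).2.2]; linarith [hR y0 hy0, hB.r1]))
  obtain ⟨e, ⟨l1, l2, l3, l4, l5, l6⟩, e0⟩ := (((eventually_le_nhds p1).and ((eventually_le_nhds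
    p2).and ((eventually_le_nhds p3).and ((eventually_le_nhds p4).and ((eventually_le_nhds p5).and
      (eventually_lt_nhds p6)))))).filter_mono nhdsWithin_le_nhds |>.and
        (self_mem_nhdsWithin (s := Ioi 0))).exists
  replace e0 : 0 < e := e0
  refine ⟨e, e0, (E1.and (evt_basic e0 e0 (2 * j.M) 0)).mono
    fun θ R ε N ⟨k, t1, t2, _, t3⟩ d T J hT hA => ?_⟩
  obtain ⟨d', -, i1, i2, -⟩ := k d T J hT (hA.mono l1 (zero_le_one.trans x1'))
  have nq : ∀ σ, (T.q σ).Near j.M j.a e := fun σ => near_mono (hT.ends σ).par.1 t3.2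
  have c1 := fun y hy => (E2 13 e l2 {0}ᶜ J T.q (fun σ => near_mono (nq σ) l2)
    ⟨fun _ i => i, fun σ y i x _ => dl_ne i⟩ hA y hy).1
  have m : ∀ y ≠ 0, J y ∈ BH j.M j.a := fun y hy =>
    ⟨(c1 y hy).1.1, (c1 y hy).1.2.1.lt_of_ne fun i => by
      have := (c1 y hy).2.2; rw [kr, ← i] at this; nlinarith, (c1 y hy).2.2⟩
  have mE : ∀ σ, ∀ y ≠ 0, J y ∈ DE j.M j.a σ := fun σ y hy =>
    ⟨⟨(m y hy).1, hB.r1.1.trans (c1 y hy).1.2.2⟩, by
      cases σ; exacts [(bh_UV (m y hy)).1, (bh_UV (m y hy)).2]⟩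
  have sJ : ∀ y ≠ 0, ContDiffAt ℝ ∞ J y := fun y hy =>
    hA.sm.contDiffAt (isOpen_compl_singleton.mem_nhds hy)
  have sΦ : ∀ y ≠ 0, ContDiffAt ℝ ∞ (fun y => pj j.M j.a (J y)) y := fun y hy =>
    (s_pj (m y hy)).comp y (sJ y hy)
  have bx : ∀ σ, ∀ x ≥ x0, ∃ c φ, ∃ e' ≤ e,
      LocAt j 13 J (T.q σ) σ {0}ᶜ (Icc (-1) 1) x c φ e' := fun σ x hx =>
    let ⟨c, φ, k⟩ := hA.box σ x hx
    ⟨c, φ, _, mul_le_of_le_one_right e0.le (Real.rpow_le_one_of_one_le_of_nonpos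
      (by linarith) (by linarith [hB.hs])), k⟩
  have rr : ∀ σ, ∀ y ≠ 0, rd (ci j.M j.a σ (J y)) = kr j.M j.a (J y) := fun σ y hy => by
    rw [← (isCh h σ).rad _ ((isCh h σ).back.maps (mE σ y hy)), (isCh h σ).right _ (mE σ y hy)]
  have sd : ∀ x : ℝ, x0 ≤ |x| → ∃ σ, x0 ≤ sgn σ * x ∧ sgn σ * (sgn σ * x) = x := fun x hx =>
    (le_abs.1 hx).elim (fun i => ⟨true, by simpa [sgn] using i, by simp [sgn]⟩)
      fun i => ⟨false, by simpa [sgn] using i, by simp [sgn]⟩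
  have pr : ∀ y ≠ 0, ∀ y' ≠ 0, |ln y - ln y'| ≤ 1 →
      (Injective (fderiv ℝ (fun y => pj j.M j.a (J y)) y) ∧ pj j.M j.a (J y) ≠ 0) ∧
        (pj j.M j.a (J y) = pj j.M j.a (J y') → y = y') ∧ |ln (pj j.M j.a (J y)) -
          ln (pj j.M j.a (J y')) - (ln y - ln y')| ≤ 1 / 4 := fun y hy y' hy' l => by
    have l' := abs_le.1 l
    rcases le_total |(ln y + ln y') / 2| x0 with i | i
    · have i' := abs_le.1 i
      refine pair (τ := 0) (κ := 0) (α := 0) (S2 (fun y => pj j.M j.a (J y)) fun z hz lz => ?_)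
        (fun y hy => at_df (sΦ y hy)) (fun z _ => by simp [rz_zero]) hy hy'
        (abs_le.2 ⟨by linarith, by linarith⟩) (abs_le.2 ⟨by linarith, by linarith⟩)
      have lz' : |Real.log ‖z‖| ≤ x0 + 1 := lz.trans_eq (by ring)
      obtain ⟨u1, u2⟩ := jt1 (hA.mid z hz lz')
      exact (E5 0 (by simpa using p5.le) z ⟨hz, lz'⟩ _ (at_df ((sJ z hz).sub (j0_cd hj hz)))
        (u1.trans l5) (u2.trans l5)).congr (.of_forall fun w => by simp)
          (.of_forall fun w => by simp)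
    obtain ⟨σ, i1, i2⟩ := sd _ i
    obtain ⟨c, φ, e', he, k⟩ := bx σ _ i1
    obtain ⟨κ, α, E⟩ := pj_sh h σ ((T.q σ).l * c) φ
    refine pair (τ := (ln y + ln y') / 2) (κ := κ) (α := α) (S1 _ fun z hz lz =>
      E3 _ (near_mono (nq σ) l3) σ J _ c φ hA.sm (mE σ) e' (he.trans l3) k z hz (by linarith))
      (fun y hy => at_df (sΦ y hy)) (fun z hz => ?_) hy hy'
      (abs_le.2 ⟨by linarith, by linarith⟩) (abs_le.2 ⟨by linarith, by linarith⟩)
    have z0 : dl σ (sgn σ * ((ln y + ln y') / 2)) z ≠ 0 := dl_ne hz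
    rw [← E _ (by rw [rd_sh, rr σ _ z0]; exact (mE σ _ z0).1.2)
      (by rw [rd_sh, rr σ _ z0]; exact (m _ z0).2.2), sh_sh, add_neg_cancel, add_neg_cancel,
      sh_zero, id, (isCh h σ).right _ (mE σ _ z0), dl, i2]
  obtain ⟨Ψ, l, ri⟩ := glob (Φ := fun y => pj j.M j.a (J y)) (fun y hy =>
    ⟨(sΦ y hy).of_le (by simp), (pr y hy y hy (by simp)).1⟩) fun y a y' b c => (pr y a y' b c).2
  obtain ⟨a1, q4, S4⟩ := (shell_cpt x0).exists_forall_le' (a := 0)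
    (f := fun z => rp j.M j.a - kr j.M j.a (J z)) (fun z hz => (continuousAt_const.sub
      ((sk _ (m z hz.1)).continuousAt.comp (sJ z hz.1).continuousAt)).continuousWithinAt)
    fun z hz => sub_pos.2 (m z hz.1).2.2
  refine sl_of (r3 := rp j.M j.a - min a1 (a2 / 2)) h hT.lor hT.sub (by linarith [hB.r1])
    (sub_lt_self _ (by positivity)) hA.sm (fun y hy => ⟨(c1 y hy).1, (c1 y hy).2.1, ?_⟩) l ri
    (fun y hy v hv => space hT.lor i2 i1 hy (hT.sub (c1 y hy).1) hv) ⟨y0, hy0, ?_⟩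
  · rcases le_total |ln y| x0 with i | i
    · linarith [S4 y ⟨hy, i⟩, min_le_left a1 (a2 / 2)]
    obtain ⟨σ, i1, i2⟩ := sd _ i
    obtain ⟨c, φ, e', he, k⟩ := bx σ _ i1
    have z0 : Real.exp (-ln y) • y ≠ 0 := smul_ne_zero (Real.exp_pos _).ne' hy
    have z1 : |ln (Real.exp (-ln y) • y)| ≤ 0 := by rw [ln_smul hy]; simp
    have k1 := (E4 _ (near_mono (nq σ) l4) σ J _ c φ hA.sm (mE σ) e' (he.trans l4) k _ z0
      (z1.trans zero_le_one)).2.1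
    have e1 : dl σ (sgn σ * ln y) (Real.exp (-ln y) • y) = y := by
      rw [dl, i2, smul_smul, ← Real.exp_add, add_neg_cancel, Real.exp_zero, one_smul]
    simp only [e1] at k1
    rw [(isCh h σ).rad _ (show rm j.M j.a < _ by rw [rd_sh, rr σ y hy]; exact (mE σ y hy).1.2),
      rd_sh, rr σ y hy] at k1
    linarith [(abs_le.1 k1).2, S3 _ ⟨z0, z1⟩, min_le_right a1 (a2 / 2)]
  · obtain ⟨b1, b2, b3⟩ := @E6 (J y0, θ, ε) (by
      show max (dist (J y0) (j.J0 y0)) (max (dist θ 0) (dist ε 0)) < e6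
      rw [dist_eq_norm, dist_zero_right, dist_zero_right,
        Real.norm_of_nonneg t1.1.le, Real.norm_of_nonneg t3.1.le]
      exact max_lt ((jt1 (hA.mid y0 hy0 (n0.trans_le (show (0 : ℝ) ≤ x0 + 1 by
        linarith)))).1.trans_lt l6)
          (max_lt (t1.2.trans l6) (t3.2.trans_lt l6)))
    obtain ⟨n1, n2, -⟩ := (hT.ends true).near _ b1 (b2.trans (by linarith))
    exact b3 _ _ _ _ hT.lor (hT.sub (c1 y0 hy0).1) ((hT.ori true _ b1).trans
      (congrArg T.Xf (kap_kin h (mE true y0 hy0)))) n1 (P354YJ.bd0 n2)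

end Vale.Agent.P354SL
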